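import Mathlib

/-!
# P112: elementary measure lemmas

Bi-Lipschitz changes of variable on the line, and the Cauchy-Schwarz inequality.
-/

namespace Vale.Agent.P112

open MeasureTheory Filter Set
open scoped Topology ENNReal NNReal

section Nice

variable {α : Type*} [MeasurableSpace α]

/-- Measurable, integrable and bounded. -/
structure Nice (μ : Measure α) (g : α → ℝ) : Prop where
  meas : Measurable g
  integrable : Integrable g μ
  bdd : ∃ B, 0 ≤ B ∧ ∀ x, |g x| ≤ B

variable {μ : Measure α} {f g : α → ℝ}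

lemma Nice.mul (hf : Nice μ f) (hg : Nice μ g) : Nice μ (fun x => f x * g x) := by
  obtain ⟨B, hB0, hB⟩ := hf.bdd
  obtain ⟨D, hD0, hD⟩ := hg.bdd
  refine ⟨hf.meas.mul hg.meas, hg.integrable.bdd_mul (c := B) hf.meas.aestronglyMeasurable
    (Eventually.of_forall fun x => by simpa using hB x), B * D, by positivity, fun x => ?_⟩
  rw [abs_mul]
  exact mul_le_mul (hB x) (hD x) (abs_nonneg _) hB0

lemma Nice.sq_integrable (hf : Nice μ f) : Integrable (fun x => f x ^ 2) μ := by
  simpa [pow_two] using (hf.mul hf).integrable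

lemma Nice.abs (hf : Nice μ f) : Nice μ (fun x => |f x|) := by
  obtain ⟨B, hB0, hB⟩ := hf.bdd
  exact ⟨hf.meas.abs, hf.integrable.abs, B, hB0, fun x => by simpa using hB x⟩

lemma Nice.add (hf : Nice μ f) (hg : Nice μ g) : Nice μ (fun x => f x + g x) := by
  obtain ⟨B, hB0, hB⟩ := hf.bdd
  obtain ⟨D, hD0, hD⟩ := hg.bdd
  exact ⟨hf.meas.add hg.meas, hf.integrable.add hg.integrable, B + D, by positivity,
    fun x => (abs_add_le _ _).trans (add_le_add (hB x) (hD x))⟩

lemma Nice.indicator (hf : Nice μ f) {s : Set α} (hs : MeasurableSet s) :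
    Nice μ (s.indicator f) := by
  obtain ⟨B, hB0, hB⟩ := hf.bdd
  refine ⟨hf.meas.indicator hs, hf.integrable.indicator hs, B, hB0, fun x => ?_⟩
  by_cases h : x ∈ s <;> simp [h, hB, hB0]

lemma abs_integral_mul_le_sqrt (hfg : AEStronglyMeasurable f μ) (hgm : AEStronglyMeasurable g μ)
    (hf : Integrable (fun x => f x ^ 2) μ) (hg : Integrable (fun x => g x ^ 2) μ) :
    |∫ x, f x * g x ∂μ| ≤ Real.sqrt (∫ x, f x ^ 2 ∂μ) * Real.sqrt (∫ x, g x ^ 2 ∂μ) := by
  have hf2 : MemLp f 2 μ := (memLp_two_iff_integrable_sq hfg).mpr hf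
  have hg2 : MemLp g 2 μ := (memLp_two_iff_integrable_sq hgm).mpr hg
  have h := integral_mul_le_Lp_mul_Lq_of_nonneg (μ := μ) (p := 2) (q := 2)
    (f := fun x => |f x|) (g := fun x => |g x|) (by exact Real.HolderConjugate.two_two)
    (Eventually.of_forall fun x => abs_nonneg _) (Eventually.of_forall fun x => abs_nonneg _)
    (by simpa [ENNReal.ofReal_ofNat, Pi.abs_def] using hf2.abs) (by simpa [ENNReal.ofReal_ofNat, Pi.abs_def] using hg2.abs)
  calc |∫ x, f x * g x ∂μ| ≤ ∫ x, |f x * g x| ∂μ := abs_integral_le_integral_abs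
    _ = ∫ x, |f x| * |g x| ∂μ := by simp_rw [abs_mul]
    _ ≤ _ := h
    _ = _ := by
      simp only [Real.sqrt_eq_rpow, Real.rpow_two, sq_abs, one_div]

lemma Nice.neg (hf : Nice μ f) : Nice μ (fun x => -f x) := by
  obtain ⟨B, hB0, hB⟩ := hf.bdd
  exact ⟨hf.meas.neg, hf.integrable.neg, B, hB0, fun x => by simpa using hB x⟩

end Nice

section Line

variable {F : ℝ → ℝ} {κ η : ℝ}

/-- `F` stretches every interval by a factor within `κ (1 ± η)`. -/
def Stretch (F : ℝ → ℝ) (κ η : ℝ) : Prop :=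
  ∀ x y, κ * (1 - η) * |x - y| ≤ |F x - F y| ∧ |F x - F y| ≤ κ * (1 + η) * |x - y|

lemma Stretch.lipschitz (h : Stretch F κ η) (hκ : 0 < κ) (hη0 : 0 ≤ η) :
    LipschitzWith (κ * (1 + η)).toNNReal F :=
  LipschitzWith.of_dist_le_mul fun x y => by
    rw [Real.coe_toNNReal _ (by positivity), Real.dist_eq, Real.dist_eq]
    exact (h x y).2

lemma Stretch.antilipschitz (h : Stretch F κ η) (hκ : 0 < κ) (hη : η < 1) :
    AntilipschitzWith ((κ * (1 - η))⁻¹).toNNReal F :=
  AntilipschitzWith.of_le_mul_dist fun x y => by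
    have : 0 < κ * (1 - η) := mul_pos hκ (by linarith)
    rw [Real.coe_toNNReal _ (by positivity), Real.dist_eq, Real.dist_eq,
      ← div_eq_inv_mul, le_div_iff₀ this]
    linarith [(h x y).1, mul_comm (|x - y|) (κ * (1 - η))]

lemma Stretch.surjective (h : Stretch F κ η) (hκ : 0 < κ) (hη0 : 0 ≤ η) (hη : η < 1) :
    Function.Surjective F := by
  have hc := (h.lipschitz hκ hη0).continuous
  have hpos : 0 < κ * (1 - η) := mul_pos hκ (by linarith)
  rcases hc.strictMono_of_inj (h.antilipschitz hκ hη).injective with hm | hm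
  · refine hc.surjective ?_ ?_
    · apply tendsto_atTop_mono' _ (f₁ := fun x => F 0 + κ * (1 - η) * x)
      · filter_upwards [eventually_ge_atTop (0 : ℝ)] with x hx
        have := (h x 0).1
        rw [sub_zero, abs_of_nonneg hx, abs_of_nonneg (sub_nonneg.mpr (hm.monotone hx))] at this
        linarith
      · exact tendsto_atTop_add_const_left _ _ (tendsto_id.const_mul_atTop hpos)
    · apply tendsto_atBot_mono' _ (f₁ := fun x => F 0 + κ * (1 - η) * x)
      · filter_upwards [eventually_le_atBot (0 : ℝ)] with x hx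
        have := (h x 0).1
        rw [sub_zero, abs_of_nonpos hx, abs_of_nonpos (sub_nonpos.mpr (hm.monotone hx))] at this
        linarith
      · exact tendsto_atBot_add_const_left _ _ (tendsto_id.const_mul_atBot hpos)
  · refine hc.surjective' ?_ ?_
    · apply tendsto_atTop_mono' _ (f₁ := fun x => F 0 + κ * (1 - η) * (-x))
      · filter_upwards [eventually_le_atBot (0 : ℝ)] with x hx
        have := (h x 0).1
        rw [sub_zero, abs_of_nonpos hx, abs_of_nonneg (sub_nonneg.mpr (hm.antitone hx))] at this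
        linarith
      · exact tendsto_atTop_add_const_left _ _ (tendsto_neg_atBot_atTop.const_mul_atTop hpos)
    · apply tendsto_atBot_mono' _ (f₁ := fun x => F 0 + κ * (1 - η) * (-x))
      · filter_upwards [eventually_ge_atTop (0 : ℝ)] with x hx
        have := (h x 0).1
        rw [sub_zero, abs_of_nonneg hx, abs_of_nonpos (sub_nonpos.mpr (hm.antitone hx))] at this
        linarith
      · exact tendsto_atBot_add_const_left _ _ (tendsto_neg_atTop_atBot.const_mul_atBot hpos)

lemma Stretch.map_le (h : Stretch F κ η) (hκ : 0 < κ) (hη0 : 0 ≤ η) (hη : η < 1) :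
    ENNReal.ofReal (κ * (1 - η)) • Measure.map F volume ≤ volume := by
  have hpos : 0 < κ * (1 - η) := mul_pos hκ (by linarith)
  refine Measure.le_iff.mpr fun s hs => ?_
  rw [Measure.smul_apply, Measure.map_apply (h.lipschitz hκ hη0).continuous.measurable hs,
    smul_eq_mul]
  have := (h.antilipschitz hκ hη).hausdorffMeasure_preimage_le zero_le_one s
  rw [hausdorffMeasure_real, ENNReal.rpow_one] at this
  calc ENNReal.ofReal (κ * (1 - η)) * volume (F ⁻¹' s)
      ≤ ENNReal.ofReal (κ * (1 - η)) * (((κ * (1 - η))⁻¹).toNNReal * volume s) := by gcongr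
    _ = volume s := by
      rw [← mul_assoc, ← ENNReal.ofReal_coe_nnreal, Real.coe_toNNReal _ (by positivity),
        ← ENNReal.ofReal_mul hpos.le, mul_inv_cancel₀ hpos.ne', ENNReal.ofReal_one, one_mul]

lemma Stretch.le_map (h : Stretch F κ η) (hκ : 0 < κ) (hη0 : 0 ≤ η) (hη : η < 1) :
    volume ≤ ENNReal.ofReal (κ * (1 + η)) • Measure.map F volume := by
  refine Measure.le_iff.mpr fun s hs => ?_
  rw [Measure.smul_apply, Measure.map_apply (h.lipschitz hκ hη0).continuous.measurable hs,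
    smul_eq_mul]
  have := (h.lipschitz hκ hη0).hausdorffMeasure_image_le zero_le_one (F ⁻¹' s)
  rw [hausdorffMeasure_real, ENNReal.rpow_one,
    Set.image_preimage_eq _ (h.surjective hκ hη0 hη)] at this
  calc volume s ≤ (κ * (1 + η)).toNNReal * volume (F ⁻¹' s) := this
    _ = _ := by rfl

lemma Stretch.lintegral_comp_le (h : Stretch F κ η) (hκ : 0 < κ) (hη0 : 0 ≤ η) (hη : η < 1)
    {f : ℝ → ℝ≥0∞} (hf : Measurable f) :
    ENNReal.ofReal (κ * (1 - η)) * ∫⁻ x, f (F x) ≤ ∫⁻ x, f x := by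
  rw [← lintegral_map hf (h.lipschitz hκ hη0).continuous.measurable, ← smul_eq_mul,
    ← lintegral_smul_measure]
  exact lintegral_mono' (h.map_le hκ hη0 hη) le_rfl

lemma Stretch.lintegral_le_comp (h : Stretch F κ η) (hκ : 0 < κ) (hη0 : 0 ≤ η) (hη : η < 1)
    {f : ℝ → ℝ≥0∞} (hf : Measurable f) :
    ∫⁻ x, f x ≤ ENNReal.ofReal (κ * (1 + η)) * ∫⁻ x, f (F x) := by
  rw [← lintegral_map hf (h.lipschitz hκ hη0).continuous.measurable, ← smul_eq_mul,
    ← lintegral_smul_measure]
  exact lintegral_mono' (h.le_map hκ hη0 hη) le_rfl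

lemma Stretch.integrable_comp (h : Stretch F κ η) (hκ : 0 < κ) (hη0 : 0 ≤ η) (hη : η < 1)
    {f : ℝ → ℝ} (hf : Measurable f) (hfi : Integrable f) : Integrable (fun x => f (F x)) := by
  refine ⟨(hf.comp (h.lipschitz hκ hη0).continuous.measurable).aestronglyMeasurable, ?_⟩
  have hpos : 0 < κ * (1 - η) := mul_pos hκ (by linarith)
  have h1 := h.lintegral_comp_le hκ hη0 hη (f := fun x => ‖f x‖ₑ) hf.enorm
  have h2 : ∫⁻ x, ‖f x‖ₑ < ⊤ := hfi.2
  rw [hasFiniteIntegral_iff_enorm]
  by_contra hcon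
  rw [not_lt, top_le_iff] at hcon
  simp only [hcon] at h1
  rw [ENNReal.mul_top (by simp [hpos])] at h1
  exact absurd (top_le_iff.mp h1) h2.ne

lemma Stretch.integral_bounds (h : Stretch F κ η) (hκ : 0 < κ) (hη0 : 0 ≤ η) (hη : η < 1)
    {f : ℝ → ℝ} (hf : Measurable f) (hfi : Integrable f) (hf0 : ∀ x, 0 ≤ f x) :
    κ * (1 - η) * ∫ x, f (F x) ≤ ∫ x, f x ∧ ∫ x, f x ≤ κ * (1 + η) * ∫ x, f (F x) := by
  have hpos : 0 < κ * (1 - η) := mul_pos hκ (by linarith)
  have hc := h.integrable_comp hκ hη0 hη hf hfi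
  have a := h.lintegral_comp_le hκ hη0 hη (f := fun x => ENNReal.ofReal (f x)) hf.ennreal_ofReal
  have b := h.lintegral_le_comp hκ hη0 hη (f := fun x => ENNReal.ofReal (f x)) hf.ennreal_ofReal
  rw [← ofReal_integral_eq_lintegral_ofReal hfi (Eventually.of_forall hf0),
    ← ofReal_integral_eq_lintegral_ofReal hc (Eventually.of_forall fun x => hf0 _)] at a b
  rw [← ENNReal.ofReal_mul hpos.le] at a
  rw [← ENNReal.ofReal_mul (by positivity)] at b
  exact ⟨(ENNReal.ofReal_le_ofReal_iff (integral_nonneg hf0)).mp a,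
    (ENNReal.ofReal_le_ofReal_iff
      (mul_nonneg (by positivity) (integral_nonneg fun x => hf0 _))).mp b⟩

/-- Signed change of variables up to a relative error `η`. -/
lemma Stretch.abs_sub_le (h : Stretch F κ η) (hκ : 0 < κ) (hη0 : 0 ≤ η) (hη : η < 1)
    {f : ℝ → ℝ} (hf : Measurable f) (hfi : Integrable f) :
    |(∫ x, f (F x)) - κ⁻¹ * ∫ x, f x| ≤ η * ∫ x, |f (F x)| := by
  set p : ℝ → ℝ := fun x => max (f x) 0 with hp
  set q : ℝ → ℝ := fun x => max (-f x) 0 with hq
  have hpm : Measurable p := hf.max measurable_const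
  have hqm : Measurable q := hf.neg.max measurable_const
  have hpi : Integrable p := hfi.pos_part
  have hqi : Integrable q := hfi.neg_part
  obtain ⟨p1, p2⟩ := h.integral_bounds hκ hη0 hη hpm hpi fun x => le_max_right _ _
  obtain ⟨q1, q2⟩ := h.integral_bounds hκ hη0 hη hqm hqi fun x => le_max_right _ _
  have hpc := h.integrable_comp hκ hη0 hη hpm hpi
  have hqc := h.integrable_comp hκ hη0 hη hqm hqi
  have e1 : (fun x => f x) = fun x => p x - q x := by
    funext x; simp only [hp, hq]; rcases le_total 0 (f x) with h | h <;> simp [h]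
  have e2 : ∀ x, |f x| = p x + q x := fun x => by
    simp only [hp, hq]; rcases le_total 0 (f x) with h | h <;> simp [h, abs_of_nonneg, abs_of_nonpos]
  have e1' : ∀ x, f x = p x - q x := fun x => congrFun e1 x
  simp_rw [e2, e1']
  rw [integral_sub hpc hqc, integral_sub hpi hqi, integral_add hpc hqc]
  have hκi : 0 < κ⁻¹ := inv_pos.mpr hκ
  have r : ∀ {A B : ℝ}, κ * (1 - η) * A ≤ B → (1 - η) * A ≤ κ⁻¹ * B := fun {A B} hAB => by
    have := mul_le_mul_of_nonneg_left hAB hκi.le
    rwa [← mul_assoc, ← mul_assoc, inv_mul_cancel₀ hκ.ne', one_mul] at this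
  have r' : ∀ {A B : ℝ}, B ≤ κ * (1 + η) * A → κ⁻¹ * B ≤ (1 + η) * A := fun {A B} hAB => by
    have := mul_le_mul_of_nonneg_left hAB hκi.le
    rwa [← mul_assoc, ← mul_assoc, inv_mul_cancel₀ hκ.ne', one_mul] at this
  have := r p1; have := r q1; have := r' p2; have := r' q2
  rw [abs_le, mul_sub]
  constructor <;> nlinarith

end Line

end Vale.Agent.P112
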