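import Vale.Agent.P112.SupBound

/-!
# P112: the column estimate

A truncated Hilbert integral along a mildly nonlinear parametrisation of a vertical line is
controlled by the dyadic Poisson and conjugate Poisson potentials at the base point.
-/

namespace Vale.Agent.P112

open MeasureTheory Filter Set
open scoped Topology

noncomputable section

def ann (a b : ℝ) : Set ℝ := {y | a ≤ |y| ∧ |y| < b}

lemma measurableSet_ann (a b : ℝ) : MeasurableSet (ann a b) :=
  (measurableSet_le measurable_const measurable_id.abs).inter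
    (measurableSet_lt measurable_id.abs measurable_const)

lemma volume_ann_lt_top (a b : ℝ) : volume (ann a b) < ⊤ :=
  (measure_mono fun _ hy => abs_le.mp (hy.2.le)).trans_lt (measure_Icc_lt_top (a := -b) (b := b))

variable {G : ℝ → ℝ} {m X : ℝ}

/-- `X` dominates both families of dyadic potentials of `G` at `m`. -/
structure Dom (G : ℝ → ℝ) (m X : ℝ) : Prop where
  kkle : ∀ z : ℤ, |conv (kk ((2 : ℝ) ^ z)) G m| ≤ X
  pple : ∀ z : ℤ, conv (pp ((2 : ℝ) ^ z)) (fun y => |G y|) m ≤ X

lemma exists_zpow_near {r : ℝ} (hr : 0 < r) : ∃ z : ℤ, r ≤ (2 : ℝ) ^ z ∧ (2 : ℝ) ^ z ≤ 2 * r := by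
  obtain ⟨n, h1, h2⟩ := exists_mem_Ico_zpow hr one_lt_two
  refine ⟨n + 1, h2.le, ?_⟩
  rw [zpow_add_one₀ two_ne_zero]
  linarith

lemma conv_eq_neg (e : ℝ) : conv (kk e) G m = -∫ y, kk e y * G (m + y) := by
  rw [conv, ← integral_add_left_eq_self (fun y => kk e (m - y) * G y) m, ← integral_neg]
  congr 1; funext y
  simp only [kk, sub_add_cancel_left, neg_sq]
  ring

lemma conv_pp_eq (e : ℝ) : conv (pp e) (fun y => |G y|) m = ∫ y, pp e y * |G (m + y)| := by
  rw [conv, ← integral_add_left_eq_self (fun y => pp e (m - y) * |G y|) m]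
  congr 1; funext y
  simp only [pp, sub_add_cancel_left, neg_sq]

lemma Nice.shift (hG : Nice volume G) (m : ℝ) : Nice volume (fun y => G (m + y)) := by
  obtain ⟨B, hB0, hB⟩ := hG.bdd
  exact ⟨hG.meas.comp (measurable_const_add m), hG.integrable.comp_add_left m, B, hB0,
    fun y => hB _⟩

lemma integrable_pp_mul {K : ℝ → ℝ} (hK : Nice volume K) {e : ℝ} (he : 0 < e) :
    Integrable (fun y => pp e y * K y) ∧ Integrable (fun y => kk e y * K y) :=
  ⟨hK.integrable.bdd_mul (c := e⁻¹) (measurable_pp e).aestronglyMeasurable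
    (Eventually.of_forall fun y => by simpa using good_pp.abs_le he y),
   hK.integrable.bdd_mul (c := e⁻¹) (measurable_kk e).aestronglyMeasurable
    (Eventually.of_forall fun y => by simpa using good_kk.abs_le he y)⟩

lemma pp_le_four {e e' : ℝ} (he : 0 < e) (h1 : e ≤ e') (h2 : e' ≤ 2 * e) (t : ℝ) :
    pp e t ≤ 4 * pp e' t := by
  have := den_pos he t
  have := den_pos (he.trans_le h1) t
  unfold pp
  rw [← mul_div_assoc, div_le_div_iff₀ (by assumption) (by assumption)]
  nlinarith [mul_le_mul h2 h2 (by linarith) (by linarith), sq_nonneg t]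

lemma kk_diff_le {e e' : ℝ} (he : 0 < e) (h1 : e ≤ e') (h2 : e' ≤ 2 * e) (t : ℝ) :
    |kk e t - kk e' t| ≤ 2 * pp e t := by
  have hD := den_pos he t
  have hD' := den_pos (he.trans_le h1) t
  have e1 : kk e t - kk e' t = t * (e' ^ 2 - e ^ 2) / ((t ^ 2 + e ^ 2) * (t ^ 2 + e' ^ 2)) := by
    unfold kk; field_simp; ring
  rw [e1, abs_div, abs_mul, abs_of_pos (mul_pos hD hD'), div_le_iff₀ (mul_pos hD hD'), pp]
  have h3 : |e' ^ 2 - e ^ 2| ≤ 3 * e ^ 2 := by
    rw [abs_of_nonneg (by nlinarith)]; nlinarith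
  have e2 : 2 * (e / (t ^ 2 + e ^ 2)) * ((t ^ 2 + e ^ 2) * (t ^ 2 + e' ^ 2)) =
      2 * e * (t ^ 2 + e' ^ 2) := by field_simp
  rw [e2]
  have h4 : 2 * (|t| * e) ≤ t ^ 2 + e ^ 2 := by nlinarith [sq_nonneg (|t| - e), sq_abs t]
  have h5 : t ^ 2 + e ^ 2 ≤ t ^ 2 + e' ^ 2 := by nlinarith
  calc |t| * |e' ^ 2 - e ^ 2| ≤ |t| * (3 * e ^ 2) := mul_le_mul_of_nonneg_left h3 (abs_nonneg t)
    _ ≤ _ := by nlinarith [mul_le_mul_of_nonneg_left (h4.trans h5) he.le]

lemma inv_sub_kk_le {a b : ℝ} (ha : 0 < a) (hab : a ≤ b) (t : ℝ) :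
    |(ann a b).indicator (fun y => y⁻¹) t - (kk a t - kk b t)| ≤ 2 * (pp a t + pp b t) := by
  have hb : 0 < b := ha.trans_le hab
  have hDa := den_pos ha t
  have hDb := den_pos hb t
  have pa := pp_nonneg ha t
  have pb := pp_nonneg hb t
  have small : ∀ {c : ℝ}, 0 < c → |t| ≤ c → |kk c t| ≤ pp c t := by
    intro c hc hct
    rw [kk, pp, abs_div, abs_of_pos (den_pos hc t)]
    exact div_le_div_of_nonneg_right hct (den_pos hc t).le
  by_cases h : t ∈ ann a b
  · have ht : 0 < |t| := ha.trans_le h.1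
    have ht0 : t ≠ 0 := abs_pos.mp ht
    rw [Set.indicator_of_mem h]
    have e1 : t⁻¹ - kk a t = a ^ 2 / (t * (t ^ 2 + a ^ 2)) := by unfold kk; field_simp; ring
    have b1 : |t⁻¹ - kk a t| ≤ pp a t := by
      rw [e1, abs_div, abs_mul, abs_of_pos hDa, abs_of_pos (pow_pos ha 2), pp, pow_two,
        mul_div_mul_comm]
      refine mul_le_of_le_one_left ?_ ((div_le_one ht).mpr h.1)
      have : (0 : ℝ) < t ^ 2 + a * a := by positivity
      positivity
    rw [show t⁻¹ - (kk a t - kk b t) = (t⁻¹ - kk a t) + kk b t by ring]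
    exact (abs_add_le _ _).trans (by linarith [small hb h.2.le])
  · rw [Set.indicator_of_notMem h, zero_sub, abs_neg]
    rcases not_and_or.mp h with h' | h'
    · have h'' := (not_le.mp h').le
      exact (abs_sub _ _).trans (by linarith [small ha h'', small hb (h''.trans hab)])
    · have htb := not_lt.mp h'
      have ht : 0 < |t| := hb.trans_le htb
      have e1 : kk a t - kk b t = t * (b ^ 2 - a ^ 2) / ((t ^ 2 + a ^ 2) * (t ^ 2 + b ^ 2)) := by
        unfold kk; field_simp; ring
      refine le_trans ?_ (by linarith : pp b t ≤ 2 * (pp a t + pp b t))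
      rw [e1, abs_div, abs_mul, abs_of_pos (mul_pos hDa hDb), pp,
        div_le_div_iff₀ (mul_pos hDa hDb) hDb, abs_of_nonneg (by nlinarith : 0 ≤ b ^ 2 - a ^ 2)]
      have : |t| * (b ^ 2 - a ^ 2) ≤ b * (t ^ 2 + a ^ 2) := by
        rw [← sq_abs t]
        nlinarith [mul_le_mul_of_nonneg_left htb (mul_nonneg hb.le ht.le), mul_nonneg ht.le (sq_nonneg a),
          mul_nonneg hb.le (sq_nonneg a)]
      nlinarith

variable (hG : Nice volume G) (hX : Dom G m X)
include hG hX

omit hG in
lemma Dom.nonneg : 0 ≤ X := (abs_nonneg _).trans (hX.kkle 0)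

lemma Dom.pp_real {r : ℝ} (hr : 0 < r) : ∫ y, pp r y * |G (m + y)| ≤ 4 * X := by
  obtain ⟨z, h1, h2⟩ := exists_zpow_near hr
  have hK := (hG.shift m).abs
  have he : (0 : ℝ) < 2 ^ z := zpow_pos two_pos z
  calc ∫ y, pp r y * |G (m + y)| ≤ ∫ y, 4 * (pp (2 ^ z) y * |G (m + y)|) := by
        refine integral_mono (integrable_pp_mul hK hr).1 ((integrable_pp_mul hK he).1.const_mul 4)
          fun y => ?_
        rw [← mul_assoc]
        exact mul_le_mul_of_nonneg_right (pp_le_four hr h1 h2 y) (abs_nonneg _)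
    _ = 4 * conv (pp (2 ^ z)) (fun y => |G y|) m := by rw [integral_const_mul, conv_pp_eq]
    _ ≤ 4 * X := by linarith [hX.pple z]

lemma Dom.kk_real {r : ℝ} (hr : 0 < r) : |∫ y, kk r y * G (m + y)| ≤ 9 * X := by
  obtain ⟨z, h1, h2⟩ := exists_zpow_near hr
  have hK := hG.shift m
  have he : (0 : ℝ) < 2 ^ z := zpow_pos two_pos z
  have i1 := (integrable_pp_mul hK hr).2
  have i2 := (integrable_pp_mul hK he).2
  have hz : |∫ y, kk (2 ^ z) y * G (m + y)| ≤ X := by
    have := hX.kkle z
    rwa [conv_eq_neg, abs_neg] at this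
  have hd : |(∫ y, kk r y * G (m + y)) - ∫ y, kk (2 ^ z) y * G (m + y)| ≤ 8 * X := by
    rw [← integral_sub i1 i2]
    refine abs_integral_le_integral_abs.trans ?_
    calc ∫ y, |kk r y * G (m + y) - kk (2 ^ z) y * G (m + y)|
        ≤ ∫ y, 2 * (pp r y * |G (m + y)|) := by
          refine integral_mono (i1.sub i2).abs ((integrable_pp_mul hK.abs hr).1.const_mul 2)
            fun y => ?_
          rw [← sub_mul, abs_mul, ← mul_assoc]
          exact mul_le_mul_of_nonneg_right (kk_diff_le hr h1 h2 y) (abs_nonneg _)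
      _ ≤ 8 * X := by rw [integral_const_mul]; linarith [hX.pp_real hG hr]
  rw [abs_le] at hz hd ⊢
  constructor <;> linarith [hz.1, hz.2, hd.1, hd.2]

lemma Dom.hilbert {a b : ℝ} (ha : 0 < a) (hab : a ≤ b) :
    |∫ y, (ann a b).indicator (fun y => G (m + y) / y) y| ≤ 34 * X := by
  have hb := ha.trans_le hab
  have hK := hG.shift m
  have ia := (integrable_pp_mul hK ha).2
  have ib := (integrable_pp_mul hK hb).2
  have pa := (integrable_pp_mul hK.abs ha).1
  have pb := (integrable_pp_mul hK.abs hb).1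
  set E : ℝ → ℝ := fun y =>
    ((ann a b).indicator (fun y => y⁻¹) y - (kk a y - kk b y)) * G (m + y) with hE
  have hEb : ∀ y, |E y| ≤ 2 * (pp a y * |G (m + y)|) + 2 * (pp b y * |G (m + y)|) := fun y => by
    simp only [hE, abs_mul]
    refine (mul_le_mul_of_nonneg_right (inv_sub_kk_le ha hab y) (abs_nonneg _)).trans (le_of_eq ?_)
    ring
  have iE : Integrable E := ((pa.const_mul 2).add (pb.const_mul 2)).mono'
    ((((measurable_inv).indicator (measurableSet_ann a b)).sub
      ((measurable_kk a).sub (measurable_kk b))).mul hK.meas).aestronglyMeasurable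
    (Eventually.of_forall hEb)
  have heq : (fun y => (ann a b).indicator (fun y => G (m + y) / y) y) =
      fun y => E y + (kk a y * G (m + y) - kk b y * G (m + y)) := by
    funext y
    by_cases h : y ∈ ann a b <;> simp [hE, h, div_eq_mul_inv] <;> ring
  rw [heq, integral_add (g := fun y => kk a y * G (m + y) - kk b y * G (m + y)) iE (ia.sub ib),
    integral_sub ia ib]
  have h0 : |∫ y, E y| ≤ 16 * X := by
    refine abs_integral_le_integral_abs.trans ?_
    calc ∫ y, |E y| ≤ ∫ y, (2 * (pp a y * |G (m + y)|) + 2 * (pp b y * |G (m + y)|)) :=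
          integral_mono iE.abs ((pa.const_mul 2).add (pb.const_mul 2)) hEb
      _ ≤ 16 * X := by
          rw [integral_add (pa.const_mul 2) (pb.const_mul 2), integral_const_mul, integral_const_mul]
          linarith [hX.pp_real hG ha, hX.pp_real hG hb]
  have h1 := hX.kk_real hG ha
  have h2 := hX.kk_real hG hb
  rw [abs_le] at h0 h1 h2 ⊢
  constructor <;> linarith [h0.1, h0.2, h1.1, h1.2, h2.1, h2.2]

lemma Dom.window {r : ℝ} (hr : 0 < r) :
    ∫ y, {y : ℝ | |y| < r}.indicator (fun y => |G (m + y)|) y ≤ 8 * r * X := by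
  have hK := (hG.shift m).abs
  calc _ ≤ ∫ y, 2 * r * (pp r y * |G (m + y)|) := by
        refine integral_mono (hK.integrable.indicator
          (measurableSet_lt measurable_id.abs measurable_const))
          ((integrable_pp_mul hK hr).1.const_mul _) fun y => ?_
        by_cases h : |y| < r
        · rw [Set.indicator_of_mem (show y ∈ {y : ℝ | |y| < r} from h)]
          have : 1 ≤ 2 * r * pp r y := by
            rw [pp, ← mul_div_assoc, le_div_iff₀ (den_pos hr y)]
            nlinarith [sq_abs y, mul_self_le_mul_self (abs_nonneg y) h.le]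
          rw [← mul_assoc]
          exact le_mul_of_one_le_left (abs_nonneg _) this
        · rw [Set.indicator_of_notMem (show y ∉ {y : ℝ | |y| < r} from h)]
          exact mul_nonneg (by positivity) (mul_nonneg (pp_nonneg hr _) (abs_nonneg _))
    _ ≤ 8 * r * X := by
        rw [integral_const_mul]
        nlinarith [hX.pp_real hG hr]

section Curve

variable {τ h : ℝ → ℝ} {Λ : ℝ}
  (hΛ : 0 < Λ) (hτ : ∀ y y', |τ y - τ y'| ≤ Λ * |y - y'|) (hhm : Measurable h)
  (hh : ∀ s, |s| ≤ (16 * Λ)⁻¹ → h s = s * τ (h s))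

omit hG hX
include hΛ hτ hh

lemma curve_close {s : ℝ} (hs : |s| ≤ (16 * Λ)⁻¹) :
    |h s - s * τ 0| ≤ Λ * |s| * |h s| ∧ |h s| ≤ 2 * (|s| * |τ 0|) ∧
      15 * (|s| * |τ 0|) ≤ 16 * |h s| + 2 * (|s| * |τ 0|) := by
  have e : h s - s * τ 0 = s * (τ (h s) - τ 0) := by rw [mul_sub, ← hh s hs]
  have h1 : |h s - s * τ 0| ≤ Λ * |s| * |h s| := by
    rw [e, abs_mul]
    have := hτ (h s) 0
    rw [sub_zero] at this
    nlinarith [abs_nonneg s]
  have h2 : Λ * |s| ≤ 1 / 16 := by
    calc Λ * |s| ≤ Λ * (16 * Λ)⁻¹ := mul_le_mul_of_nonneg_left hs hΛ.le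
      _ = 1 / 16 := by field_simp
  have h3 : |h s - s * τ 0| ≤ |h s| / 16 := by nlinarith [abs_nonneg (h s)]
  have h4 : |s * τ 0| = |s| * |τ 0| := abs_mul _ _
  refine ⟨h1, ?_, ?_⟩
  · have := abs_sub_abs_le_abs_sub (h s) (s * τ 0)
    linarith [abs_nonneg (h s)]
  · have := abs_sub_abs_le_abs_sub (s * τ 0) (h s)
    rw [abs_sub_comm] at this
    linarith [abs_nonneg (h s)]

omit hG hX in
lemma curve_stretch {ρ : ℝ} (hρ0 : 0 ≤ ρ) (hρ : ρ ≤ (16 * Λ)⁻¹) :
    Stretch (fun s => h (max (-ρ) (min ρ s)) + τ 0 * (s - max (-ρ) (min ρ s)))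
      |τ 0| (4 * Λ * ρ) := by
  intro s s'
  set c := max (-ρ) (min ρ s)
  set c' := max (-ρ) (min ρ s')
  have hc : |c| ≤ ρ := abs_le.mpr ⟨le_max_left _ _, max_le (by linarith) (min_le_left _ _)⟩
  have hc' : |c'| ≤ ρ := abs_le.mpr ⟨le_max_left _ _, max_le (by linarith) (min_le_left _ _)⟩
  have hcc : |c - c'| ≤ |s - s'| := by
    have h1 : |c - c'| ≤ |min ρ s - min ρ s'| := by
      simp only [c, c', max_comm (-ρ)]
      exact abs_max_sub_max_le_abs _ _ _
    exact h1.trans ((abs_min_sub_min_le_max ρ s ρ s').trans (by simp))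
  obtain ⟨-, b2, -⟩ := curve_close hΛ hτ hh (hc.trans hρ)
  have hΛρ : Λ * ρ ≤ 1 / 16 := by
    calc Λ * ρ ≤ Λ * (16 * Λ)⁻¹ := mul_le_mul_of_nonneg_left hρ hΛ.le
      _ = 1 / 16 := by field_simp
  have e : h c - h c' - τ 0 * (c - c') = (c - c') * (τ (h c) - τ 0) + c' * (τ (h c) - τ (h c')) := by
    calc h c - h c' - τ 0 * (c - c') = c * τ (h c) - c' * τ (h c') - τ 0 * (c - c') := by
          rw [← hh c (hc.trans hρ), ← hh c' (hc'.trans hρ)]
      _ = _ := by ring
  have u1 : |τ (h c) - τ 0| ≤ Λ * (2 * (ρ * |τ 0|)) := by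
    have := hτ (h c) 0
    rw [sub_zero] at this
    exact this.trans (mul_le_mul_of_nonneg_left
      (b2.trans (by gcongr)) hΛ.le)
  have u2 : |h c - h c' - τ 0 * (c - c')| ≤
      2 * Λ * ρ * |τ 0| * |c - c'| + Λ * ρ * |h c - h c'| := by
    rw [e]
    refine (abs_add_le _ _).trans ?_
    rw [abs_mul, abs_mul]
    have := hτ (h c) (h c')
    nlinarith [mul_le_mul_of_nonneg_left u1 (abs_nonneg (c - c')),
      mul_le_mul hc' this (abs_nonneg _) hρ0]
  have u3 : |h c - h c'| ≤ 2 * |τ 0| * |c - c'| := by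
    have := abs_sub_abs_le_abs_sub (h c - h c') (τ 0 * (c - c'))
    rw [abs_mul] at this
    have p1 : Λ * ρ * |h c - h c'| ≤ |h c - h c'| / 16 := by
      linarith [mul_le_mul_of_nonneg_right hΛρ (abs_nonneg (h c - h c'))]
    have p2 : 2 * Λ * ρ * |τ 0| * |c - c'| ≤ |τ 0| * |c - c'| / 8 := by
      linarith [mul_le_mul_of_nonneg_right hΛρ (mul_nonneg (abs_nonneg (τ 0)) (abs_nonneg (c - c')))]
    linarith [mul_nonneg (abs_nonneg (τ 0)) (abs_nonneg (c - c'))]
  have u4 : |(h c + τ 0 * (s - c)) - (h c' + τ 0 * (s' - c')) - τ 0 * (s - s')| ≤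
      4 * Λ * ρ * |τ 0| * |s - s'| := by
    rw [show (h c + τ 0 * (s - c)) - (h c' + τ 0 * (s' - c')) - τ 0 * (s - s') =
      h c - h c' - τ 0 * (c - c') by ring]
    calc _ ≤ _ := u2
      _ ≤ 2 * Λ * ρ * |τ 0| * |c - c'| + Λ * ρ * (2 * |τ 0| * |c - c'|) := by gcongr
      _ = 4 * Λ * ρ * |τ 0| * |c - c'| := by ring
      _ ≤ _ := by gcongr
  have hm : |τ 0 * (s - s')| = |τ 0| * |s - s'| := abs_mul _ _
  show |τ 0| * (1 - 4 * Λ * ρ) * |s - s'| ≤ |(h c + τ 0 * (s - c)) - (h c' + τ 0 * (s' - c'))| ∧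
    |(h c + τ 0 * (s - c)) - (h c' + τ 0 * (s' - c'))| ≤ |τ 0| * (1 + 4 * Λ * ρ) * |s - s'|
  generalize (h c + τ 0 * (s - c)) - (h c' + τ 0 * (s' - c')) = D at u4 ⊢
  have t1 := abs_sub_abs_le_abs_sub (τ 0 * (s - s')) D
  have t2 := abs_sub_abs_le_abs_sub D (τ 0 * (s - s'))
  rw [abs_sub_comm (τ 0 * (s - s')) D] at t1
  constructor <;> linarith

include hG hX hhm

omit hhm in
lemma curve_window {r : ℝ} (hr : 0 < r) (hr' : r ≤ (16 * Λ)⁻¹) (hδ : τ 0 ≠ 0) :
    ∫ s, {s : ℝ | |s| < r}.indicator (fun s => |G (m + h s)|) s ≤ 32 * r * X := by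
  have hδp : 0 < |τ 0| := abs_pos.mpr hδ
  set η := 4 * Λ * r with hη
  have hη1 : η ≤ 1 / 4 := by
    calc η ≤ 4 * Λ * (16 * Λ)⁻¹ := mul_le_mul_of_nonneg_left hr' (by positivity)
      _ = 1 / 4 := by field_simp; ring
  set F := fun s => h (max (-r) (min r s)) + τ 0 * (s - max (-r) (min r s)) with hF
  have hst := curve_stretch hΛ hτ hh hr.le hr'
  set W : ℝ → ℝ :=
    {y : ℝ | |y| < 2 * r * |τ 0|}.indicator (fun y => |G (m + y)|) with hW
  have hWn : Nice volume W :=
    (hG.shift m).abs.indicator (measurableSet_lt measurable_id.abs measurable_const)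
  have hW0 : ∀ y, 0 ≤ W y := fun y => Set.indicator_nonneg (fun _ _ => abs_nonneg _) y
  have hη0 : 0 ≤ η := by positivity
  have hb := (hst.integral_bounds hδp hη0 (by linarith) hWn.meas hWn.integrable hW0).1
  have hwin := hX.window hG (r := 2 * r * |τ 0|) (by positivity)
  have hpt : ∀ s, {s : ℝ | |s| < r}.indicator (fun s => |G (m + h s)|) s ≤ W (F s) := by
    intro s
    by_cases hs : |s| < r
    · have hFs : F s = h s := by
        have h' := abs_lt.mp hs
        simp [hF, min_eq_right h'.2.le, max_eq_right h'.1.le]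
      obtain ⟨-, b2, -⟩ := curve_close hΛ hτ hh (hs.le.trans hr')
      have : |h s| < 2 * r * |τ 0| := by nlinarith [mul_lt_mul_of_pos_right hs hδp]
      rw [Set.indicator_of_mem (show s ∈ {s : ℝ | |s| < r} from hs), hFs, hW,
        Set.indicator_of_mem (show h s ∈ {y : ℝ | |y| < 2 * r * |τ 0|} from this)]
    · rw [Set.indicator_of_notMem (show s ∉ {s : ℝ | |s| < r} from hs)]
      exact hW0 _
  have hci := hst.integrable_comp hδp hη0 (by linarith) hWn.meas hWn.integrable
  have h1 : ∫ s, {s : ℝ | |s| < r}.indicator (fun s => |G (m + h s)|) s ≤ ∫ s, W (F s) :=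
    integral_mono_of_nonneg (Eventually.of_forall fun s =>
      Set.indicator_nonneg (fun _ _ => abs_nonneg _) s) hci (Eventually.of_forall hpt)
  refine h1.trans ?_
  have hI0 : 0 ≤ ∫ s, W (F s) := integral_nonneg fun s => hW0 _
  have : |τ 0| * (3 / 4) * ∫ s, W (F s) ≤ 8 * (2 * r * |τ 0|) * X := by
    refine le_trans ?_ (hb.trans hwin)
    gcongr
    linarith
  have hX0 := hX.nonneg
  nlinarith [mul_nonneg hr.le hX0]

/-- The dyadic layer at height about `L d`. -/
def layer (L d : ℝ) : Set ℝ := {y | L * d ≤ |y| ∧ |y| < 2 * L * d}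

/-- The straight integrand on a layer. -/
def Mf (G : ℝ → ℝ) (m : ℝ) (τ : ℝ → ℝ) (L : ℝ) : ℝ → ℝ :=
  (layer L |τ 0|).indicator fun y => G (m + y) / y

/-- The curved integrand on a layer. -/
def Hf (G : ℝ → ℝ) (m : ℝ) (τ : ℝ → ℝ) (L : ℝ) : ℝ → ℝ :=
  (layer L |τ 0|).indicator fun y => G (m + y) * τ y / y

omit hX hh hhm in
lemma layer_nice (hδ : τ 0 ≠ 0) {L : ℝ} (hL0 : 0 < L) :
    Nice volume (Mf G m τ L) ∧ Nice volume (Hf G m τ L) := by
    obtain ⟨B, hB0, hB⟩ := hG.bdd
    have hδp : 0 < |τ 0| := abs_pos.mpr hδ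
    set d := |τ 0| with hd
    have mk : ∀ (f : ℝ → ℝ), Measurable f → (∀ y ∈ layer L d, |f y| ≤ d + Λ * (2 * L * d)) →
        Nice volume ((layer L d).indicator fun y => G (m + y) * f y / y) := by
      intro f hf hfb
      have hb' : ∀ y ∈ layer L d, |G (m + y) * f y / y| ≤ B * (d + Λ * (2 * L * d)) / (L * d) := by
        intro y hy
        rw [abs_div, abs_mul]
        exact div_le_div₀ (by positivity) (mul_le_mul (hB _) (hfb y hy) (abs_nonneg _) hB0)
          (mul_pos hL0 hδp) hy.1
      refine ⟨(((hG.shift m).meas.mul hf).div measurable_id).indicator (measurableSet_ann _ _),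
        ?_, B * (d + Λ * (2 * L * d)) / (L * d), by positivity, fun y => ?_⟩
      · exact (integrable_indicator_iff (measurableSet_ann _ _)).mpr (IntegrableOn.of_bound
          (volume_ann_lt_top _ _) (((hG.shift m).meas.mul hf).div measurable_id).aestronglyMeasurable _
          ((ae_restrict_mem (measurableSet_ann _ _)).mono fun y hy => (Real.norm_eq_abs _).trans_le (hb' y hy)))
      · by_cases hy : y ∈ layer L d
        · rw [Set.indicator_of_mem hy]; exact hb' y hy
        · rw [Set.indicator_of_notMem hy, abs_zero]; positivity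
    have hτc : LipschitzWith Λ.toNNReal τ := LipschitzWith.of_dist_le_mul fun y y' => by
      rw [Real.coe_toNNReal _ hΛ.le, Real.dist_eq, Real.dist_eq]; exact hτ y y'
    refine ⟨?_, mk τ hτc.continuous.measurable fun y hy => ?_⟩
    · have e : Mf G m τ L = fun y => d⁻¹ * (layer L d).indicator (fun y => G (m + y) * d / y) y := by
        funext y
        simp only [Mf, ← hd]
        by_cases hy : y ∈ layer L d
        · simp [hy]; field_simp
        · simp [hy]
      obtain ⟨hm', hi', C', hC0, hC'⟩ := mk (fun _ => d) measurable_const fun y _ => by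
        rw [abs_of_pos hδp]; nlinarith [mul_pos hΛ hL0]
      rw [e]
      exact ⟨hm'.const_mul _, hi'.const_mul _, d⁻¹ * C', by positivity, fun y => by
        rw [abs_mul, abs_of_pos (inv_pos.mpr hδp)]
        exact mul_le_mul_of_nonneg_left (hC' y) (by positivity)⟩
    · have := hτ y 0
      rw [sub_zero] at this
      have hy2 : |y| ≤ 2 * L * |τ 0| := hy.2.le
      calc |τ y| ≤ |τ 0| + |τ y - τ 0| := by linarith [abs_sub_abs_le_abs_sub (τ y) (τ 0)]
        _ ≤ d + Λ * (2 * L * d) := by rw [← hd]; gcongr; exact this.trans (by gcongr)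
omit hhm in
lemma curve_layer (hδ : τ 0 ≠ 0) {L : ℝ} (hL0 : 0 < L) (hL : 4 * L ≤ (16 * Λ)⁻¹) :
    ∃ P : ℝ → ℝ,
      (∀ s, P s = ({s | |s| ≤ (16 * Λ)⁻¹ ∧ h s ∈ layer L |τ 0|}).indicator
        (fun s => G (m + h s) / s) s) ∧
      Integrable P ∧
        |(∫ s, P s) - τ 0 / |τ 0| * ∫ y, Mf G m τ L y| ≤ Λ * L * (700 * X) := by
    have hX0 := hX.nonneg
    have hδp : 0 < |τ 0| := abs_pos.mpr hδ
    set d := |τ 0| with hd
    set ρ₀ := (16 * Λ)⁻¹ with hρ₀
    set ρ := 4 * L with hρ
    have hρle : ρ ≤ ρ₀ := by linarith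
    set η := 4 * Λ * ρ with hη
    have hη1 : η ≤ 1 / 4 := by
      calc η ≤ 4 * Λ * ρ₀ := mul_le_mul_of_nonneg_left hρle (by positivity)
        _ = 1 / 4 := by rw [hρ₀]; field_simp; ring
    have hη0 : 0 ≤ η := by positivity
    set F := fun s => h (max (-ρ) (min ρ s)) + τ 0 * (s - max (-ρ) (min ρ s)) with hF
    have hst : Stretch F d η := curve_stretch hΛ hτ hh (by positivity) hρle
    obtain ⟨hMn, hHn⟩ := layer_nice hG hΛ hτ hδ hL0
    have hlay2 : ∀ y ∈ layer L d, L * d ≤ |y| ∧ |y| < 2 * L * d := fun y hy => hy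
    refine ⟨fun s => Hf G m τ L (F s), fun s => ?_, hst.integrable_comp hδp hη0 (by linarith) hHn.meas
      hHn.integrable, ?_⟩
    · have hh0 : h 0 = 0 := by
        have := hh 0 (by rw [abs_zero]; positivity)
        rwa [zero_mul] at this
      by_cases hs : |s| ≤ ρ
      · have h' := abs_le.mp hs
        have hFs : F s = h s := by simp [hF, min_eq_right h'.2, max_eq_right h'.1]
        simp only [Hf, ← hd, hFs]
        by_cases hy : h s ∈ layer L d
        · rw [Set.indicator_of_mem hy, Set.indicator_of_mem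
            (show s ∈ {s | |s| ≤ ρ₀ ∧ h s ∈ layer L d} from ⟨hs.trans hρle, hy⟩)]
          have hs0 : s ≠ 0 := fun h0 => by
            have := (hlay2 _ hy).1
            rw [h0, hh0, abs_zero] at this; nlinarith
          have hh' := hh s (hs.trans hρle)
          have hτ0 : τ (h s) ≠ 0 := fun h0 => by
            have := (hlay2 _ hy).1
            rw [hh', h0, mul_zero, abs_zero] at this; nlinarith
          conv_lhs => arg 2; rw [hh']
          field_simp
        · rw [Set.indicator_of_notMem hy, Set.indicator_of_notMem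
            (fun hmem : s ∈ {s | |s| ≤ ρ₀ ∧ h s ∈ layer L d} => hy hmem.2)]
      · have hF0 : F 0 = 0 := by simp [hF, hh0, hρ, hL0.le]
        have h1 := (hst s 0).1
        rw [hF0, sub_zero, sub_zero] at h1
        have hout : F s ∉ layer L d := fun hy => by
          have := (hlay2 _ hy).2
          nlinarith [not_le.mp hs, mul_le_mul_of_nonneg_right (show 3 / 4 ≤ 1 - η by linarith) (mul_nonneg hδp.le (abs_nonneg s))]
        have hout2 : s ∉ {s | |s| ≤ ρ₀ ∧ h s ∈ layer L d} := fun ⟨p, q⟩ => by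
          obtain ⟨-, -, b3⟩ := curve_close hΛ hτ hh p
          have := (hlay2 _ q).2
          rw [← hd] at b3
          nlinarith [not_le.mp hs]
        simp only [Hf, ← hd]
        rw [Set.indicator_of_notMem hout, Set.indicator_of_notMem hout2]
    · set V : ℝ → ℝ := fun y => {y : ℝ | |y| < 2 * L * d}.indicator (fun y => |G (m + y)|) y with hV
      have iV : Integrable V :=
        (hG.shift m).abs.integrable.indicator (measurableSet_lt measurable_id.abs measurable_const)
      have hVle : ∫ y, V y ≤ 16 * L * d * X := by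
        have := hX.window hG (r := 2 * L * d) (by positivity)
        simp only [hV]; linarith
      have hτy : ∀ y ∈ layer L d, |τ y - τ 0| ≤ Λ * |y| := fun y _ => by simpa using hτ y 0
      have hHb : ∀ y, |Hf G m τ L y| ≤ 3 / (2 * L) * V y := by
        intro y
        by_cases hy : y ∈ layer L d
        · obtain ⟨l1, l2⟩ := hlay2 y hy
          simp only [Hf, ← hd, hV, Set.indicator_of_mem hy,
            Set.indicator_of_mem (show y ∈ {y : ℝ | |y| < 2 * L * d} from l2)]
          rw [abs_div, abs_mul, div_mul_eq_mul_div, div_le_div_iff₀ (by nlinarith) (by positivity)]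
          have t1 : |τ y| ≤ 3 / 2 * d := by
            have := abs_sub_abs_le_abs_sub (τ y) (τ 0)
            have := hτy y hy
            rw [← hd] at *
            nlinarith [mul_le_mul_of_nonneg_left l2.le hΛ.le]
          nlinarith [abs_nonneg (G (m + y)), mul_le_mul_of_nonneg_left t1 (abs_nonneg (G (m + y))),
            mul_le_mul_of_nonneg_left l1 (abs_nonneg (G (m + y)))]
        · simp only [Hf, ← hd, Set.indicator_of_notMem hy, abs_zero]
          exact mul_nonneg (by positivity) (Set.indicator_nonneg (fun _ _ => abs_nonneg _) _)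
      have e1 := hst.abs_sub_le hδp hη0 (by linarith) hHn.meas hHn.integrable
      have e2 := (hst.integral_bounds hδp hη0 (by linarith) hHn.abs.meas hHn.abs.integrable
        fun y => abs_nonneg _).1
      have e3 : ∫ y, |Hf G m τ L y| ≤ 3 / (2 * L) * (16 * L * d * X) := by
        refine (integral_mono hHn.abs.integrable (iV.const_mul _) hHb).trans ?_
        rw [integral_const_mul]
        exact mul_le_mul_of_nonneg_left hVle (by positivity)
      have e3' : ∫ y, |Hf G m τ L y| ≤ 24 * d * X := e3.trans_eq (by field_simp; ring)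
      have e4 : ∫ s, |Hf G m τ L (F s)| ≤ 32 * X := by
        have h0 : 0 ≤ ∫ s, |Hf G m τ L (F s)| := integral_nonneg fun _ => abs_nonneg _
        nlinarith [mul_le_mul_of_nonneg_right (show 3 / 4 ≤ 1 - η by linarith) (mul_nonneg hδp.le h0)]
      have hHM : ∀ y, |Hf G m τ L y - τ 0 * Mf G m τ L y| ≤ Λ * V y := by
        intro y
        by_cases hy : y ∈ layer L d
        · obtain ⟨l1, l2⟩ := hlay2 y hy
          simp only [Hf, Mf, ← hd, hV, Set.indicator_of_mem hy,
            Set.indicator_of_mem (show y ∈ {y : ℝ | |y| < 2 * L * d} from l2)]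
          rw [show G (m + y) * τ y / y - τ 0 * (G (m + y) / y) = G (m + y) * ((τ y - τ 0) / y) by ring,
            abs_mul, mul_comm Λ]
          refine mul_le_mul_of_nonneg_left ?_ (abs_nonneg _)
          rw [abs_div, div_le_iff₀ (by nlinarith)]
          exact hτy y hy
        · simp only [Hf, Mf, ← hd, Set.indicator_of_notMem hy, mul_zero, sub_zero, abs_zero]
          exact mul_nonneg hΛ.le (Set.indicator_nonneg (fun _ _ => abs_nonneg _) _)
      have e5 : |(∫ y, Hf G m τ L y) - τ 0 * ∫ y, Mf G m τ L y| ≤ Λ * (16 * L * d * X) := by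
        rw [← integral_const_mul, ← integral_sub hHn.integrable (hMn.integrable.const_mul _)]
        refine abs_integral_le_integral_abs.trans ((integral_mono
          ((hHn.integrable.sub (hMn.integrable.const_mul _)).abs) (iV.const_mul _) hHM).trans ?_)
        rw [integral_const_mul]
        exact mul_le_mul_of_nonneg_left hVle hΛ.le
      have e6 : |d⁻¹ * (∫ y, Hf G m τ L y) - τ 0 / d * ∫ y, Mf G m τ L y| ≤ Λ * (16 * L * X) := by
        rw [show d⁻¹ * (∫ y, Hf G m τ L y) - τ 0 / d * ∫ y, Mf G m τ L y =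
          d⁻¹ * ((∫ y, Hf G m τ L y) - τ 0 * ∫ y, Mf G m τ L y) by ring, abs_mul, abs_of_pos (inv_pos.mpr hδp),
          ← div_eq_inv_mul, div_le_iff₀ hδp]
        linarith
      calc _ ≤ |(∫ s, Hf G m τ L (F s)) - d⁻¹ * ∫ y, Hf G m τ L y| +
            |d⁻¹ * (∫ y, Hf G m τ L y) - τ 0 / d * ∫ y, Mf G m τ L y| := abs_sub_le _ _ _
        _ ≤ η * (32 * X) + Λ * (16 * L * X) :=
            add_le_add (e1.trans (mul_le_mul_of_nonneg_left e4 hη0)) e6
        _ ≤ _ := by rw [hη, hρ]; nlinarith [mul_nonneg (mul_nonneg hΛ.le hL0.le) hX0]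

lemma curve_hilbert {a : ℝ} (ha : 0 < a) (i : ℕ) (hi : 8 * (a * 2 ^ i) ≤ (16 * Λ)⁻¹) :
    |∫ s, (ann a (a * 2 ^ i)).indicator (fun s => G (m + h s) / s) s| ≤ 700 * X := by
  obtain ⟨B, hB0, hB⟩ := hG.bdd
  have hX0 := hX.nonneg
  set b := a * 2 ^ i with hb
  have hab : a ≤ b := le_mul_of_one_le_right ha.le (one_le_pow₀ one_le_two)
  have hbpos : 0 < b := ha.trans_le hab
  set ρ₀ := (16 * Λ)⁻¹ with hρ₀
  by_cases hδ : τ 0 = 0
  · have hzero : ∀ s ∈ ann a b, h s = 0 := fun s hs => by
      obtain ⟨-, b2, -⟩ := curve_close hΛ hτ hh (s := s) (by linarith [hs.2])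
      rw [hδ, abs_zero, mul_zero, mul_zero] at b2
      exact abs_nonpos_iff.mp b2
    have e : (ann a b).indicator (fun s => G (m + h s) / s) =
        (ann a b).indicator (fun s => G m / s) :=
      Set.indicator_congr fun s hs => by rw [hzero s hs, add_zero]
    rw [e]
    have hodd : ∀ s, (ann a b).indicator (fun s => G m / s) (-s) =
        -(ann a b).indicator (fun s => G m / s) s := by
      intro s
      by_cases h : s ∈ ann a b
      · have h' : -s ∈ ann a b := by simpa [ann] using h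
        simp [h, h', div_neg]
      · have h' : -s ∉ ann a b := by simpa [ann] using h
        simp [h, h']
    have hz : ∫ s, (ann a b).indicator (fun s => G m / s) s = 0 := by
      have := integral_neg_eq_self ((ann a b).indicator (fun s => G m / s)) volume
      simp_rw [hodd] at this
      rw [integral_neg] at this
      linarith
    rw [hz, abs_zero]; linarith
  have hδp : 0 < |τ 0| := abs_pos.mpr hδ
  set d := |τ 0| with hd
  have hbd : ∀ {s : ℝ}, a / 2 ≤ |s| → |G (m + h s) / s| ≤ 2 * B / a := by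
    intro s hs
    have : 0 < |s| := lt_of_lt_of_le (by linarith) hs
    rw [abs_div, div_le_div_iff₀ this ha]
    nlinarith [hB (m + h s), abs_nonneg (G (m + h s))]
  set S₂ : Set ℝ := {s | |s| ≤ ρ₀ ∧ h s ∈ ann (a * d) (b * d)} with hS₂
  have hS₂m : MeasurableSet S₂ :=
    (measurableSet_le measurable_id.abs measurable_const).inter (hhm (measurableSet_ann _ _))
  have hS₂b : ∀ {s}, s ∈ S₂ → a / 2 ≤ |s| ∧ |s| < 2 * b := by
    intro s hs
    obtain ⟨-, b2, b3⟩ := curve_close hΛ hτ hh (s := s) hs.1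
    have := hs.2.1; have := hs.2.2
    rw [← hd] at b2 b3
    constructor <;> nlinarith
  have mfun : Measurable fun s => G (m + h s) / s :=
    (hG.meas.comp (hhm.const_add m)).div measurable_id
  have i1 : Integrable ((ann a b).indicator fun s => G (m + h s) / s) :=
    (integrable_indicator_iff (measurableSet_ann a b)).mpr (IntegrableOn.of_bound
      (volume_ann_lt_top a b) mfun.aestronglyMeasurable (2 * B / a)
      ((ae_restrict_mem (measurableSet_ann a b)).mono fun s hs =>
        (Real.norm_eq_abs _).trans_le (hbd (le_trans (by linarith) hs.1))))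
  have i2 : Integrable (S₂.indicator fun s => G (m + h s) / s) :=
    (integrable_indicator_iff hS₂m).mpr (IntegrableOn.of_bound
      ((measure_mono fun s hs => (show s ∈ ann (a / 2) (2 * b) from hS₂b hs)).trans_lt
        (volume_ann_lt_top _ _)) mfun.aestronglyMeasurable (2 * B / a)
      ((ae_restrict_mem hS₂m).mono fun s hs => (Real.norm_eq_abs _).trans_le (hbd (hS₂b hs).1)))
  -- changing the domain costs only two window averages
  set Wn : ℝ → ℝ → ℝ := fun r s => {s : ℝ | |s| < r}.indicator (fun s => |G (m + h s)|) s with hWn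
  have iW : ∀ r, Integrable (Wn r) := fun r =>
    (integrable_indicator_iff (measurableSet_lt measurable_id.abs measurable_const)).mpr
      (IntegrableOn.of_bound
        ((measure_mono fun s hs => abs_le.mp (le_of_lt hs)).trans_lt
          (measure_Icc_lt_top (a := -r) (b := r)))
        (hG.meas.comp (hhm.const_add m)).abs.aestronglyMeasurable B
        (Eventually.of_forall fun s => by simpa using hB _))
  have hdiff : ∀ s, |(ann a b).indicator (fun s => G (m + h s) / s) s -
      S₂.indicator (fun s => G (m + h s) / s) s| ≤ 2 / a * Wn (2 * a) s + 2 / b * Wn (2 * b) s := by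
    intro s
    have w0 : ∀ r, 0 ≤ Wn r s := fun r => Set.indicator_nonneg (fun _ _ => abs_nonneg _) s
    have key : a / 2 ≤ |s| → |s| < 2 * a ∨ (b / 2 ≤ |s| ∧ |s| < 2 * b) →
        |G (m + h s) / s| ≤ 2 / a * Wn (2 * a) s + 2 / b * Wn (2 * b) s := by
      intro hs hcase
      have hs0 : 0 < |s| := lt_of_lt_of_le (by linarith) hs
      have wa := mul_nonneg (div_nonneg zero_le_two ha.le) (w0 (2 * a))
      have wb := mul_nonneg (div_nonneg zero_le_two hbpos.le) (w0 (2 * b))
      rcases hcase with hc | ⟨hc1, hc2⟩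
      · have : |G (m + h s) / s| ≤ 2 / a * Wn (2 * a) s := by
          simp only [hWn, Set.indicator_of_mem (show s ∈ {s : ℝ | |s| < 2 * a} from hc)]
          rw [abs_div, div_mul_eq_mul_div, div_le_div_iff₀ hs0 ha]
          nlinarith [abs_nonneg (G (m + h s))]
        linarith
      · have : |G (m + h s) / s| ≤ 2 / b * Wn (2 * b) s := by
          simp only [hWn, Set.indicator_of_mem (show s ∈ {s : ℝ | |s| < 2 * b} from hc2)]
          rw [abs_div, div_mul_eq_mul_div, div_le_div_iff₀ hs0 hbpos]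
          nlinarith [abs_nonneg (G (m + h s))]
        linarith
    by_cases h1 : s ∈ ann a b <;> by_cases h2 : s ∈ S₂
    · rw [Set.indicator_of_mem h1, Set.indicator_of_mem h2, sub_self, abs_zero]
      exact add_nonneg (mul_nonneg (by positivity) (w0 _)) (mul_nonneg (by positivity) (w0 _))
    · rw [Set.indicator_of_mem h1, Set.indicator_of_notMem h2, sub_zero]
      have hsρ : |s| ≤ ρ₀ := by linarith [h1.2]
      obtain ⟨-, b2, b3⟩ := curve_close hΛ hτ hh (s := s) hsρ
      rw [← hd] at b2 b3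
      refine key (by linarith [h1.1]) ?_
      have hnot : ¬(h s ∈ ann (a * d) (b * d)) := fun hm => h2 ⟨hsρ, hm⟩
      rcases not_and_or.mp hnot with hn | hn
      · exact Or.inl (by nlinarith [not_le.mp hn])
      · exact Or.inr ⟨by nlinarith [not_lt.mp hn], by linarith [h1.2]⟩
    · rw [Set.indicator_of_notMem h1, Set.indicator_of_mem h2, zero_sub, abs_neg]
      obtain ⟨hlo, hhi⟩ := hS₂b h2
      refine key hlo ?_
      rcases not_and_or.mp h1 with hn | hn
      · exact Or.inl (by linarith [not_le.mp hn])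
      · exact Or.inr ⟨by linarith [not_lt.mp hn], hhi⟩
    · rw [Set.indicator_of_notMem h1, Set.indicator_of_notMem h2, sub_self, abs_zero]
      exact add_nonneg (mul_nonneg (by positivity) (w0 _)) (mul_nonneg (by positivity) (w0 _))
  have hD : |(∫ s, (ann a b).indicator (fun s => G (m + h s) / s) s) -
      ∫ s, S₂.indicator (fun s => G (m + h s) / s) s| ≤ 256 * X := by
    rw [← integral_sub i1 i2]
    refine abs_integral_le_integral_abs.trans ?_
    refine (integral_mono (i1.sub i2).abs (((iW _).const_mul _).add ((iW _).const_mul _))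
      hdiff).trans ?_
    simp only [Pi.add_apply]
    rw [integral_add ((iW _).const_mul _) ((iW _).const_mul _), integral_const_mul, integral_const_mul]
    have wa := curve_window hG hX hΛ hτ hh (r := 2 * a) (by linarith) (by linarith) hδ
    have wb := curve_window hG hX hΛ hτ hh (r := 2 * b) (by linarith) (by linarith) hδ
    calc _ ≤ 2 / a * (32 * (2 * a) * X) + 2 / b * (32 * (2 * b) * X) :=
          add_le_add (mul_le_mul_of_nonneg_left wa (by positivity))
            (mul_le_mul_of_nonneg_left wb (by positivity))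
      _ = _ := by field_simp; ring
  -- the dyadic layers
  set lay : ℕ → Set ℝ := fun k => ann (a * 2 ^ k * d) (a * 2 ^ (k + 1) * d) with hlay
  set M : ℕ → ℝ → ℝ := fun k => (lay k).indicator fun y => G (m + y) / y with hM
  have htele : ∀ n : ℕ, ∀ y : ℝ,
      ∑ k ∈ Finset.range n, M k y = (ann (a * d) (a * 2 ^ n * d)).indicator (fun y => G (m + y) / y) y := by
    intro n y
    induction n with
    | zero =>
      have : y ∉ ann (a * d) (a * 2 ^ 0 * d) := fun hy => by
        simp only [pow_zero, mul_one, ann, Set.mem_ofPred_eq] at hy; linarith [hy.1, hy.2]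
      rw [Set.indicator_of_notMem this, Finset.range_zero, Finset.sum_empty]
    | succ n ih =>
      rw [Finset.sum_range_succ, ih]
      have l1 : a * d ≤ a * 2 ^ n * d :=
        mul_le_mul_of_nonneg_right (le_mul_of_one_le_right ha.le (one_le_pow₀ one_le_two)) hδp.le
      have l2 : a * 2 ^ n * d ≤ a * 2 ^ (n + 1) * d := by
        gcongr
        · norm_num
        · omega
      have hu : ann (a * d) (a * 2 ^ (n + 1) * d) = ann (a * d) (a * 2 ^ n * d) ∪ lay n := by
        ext z
        simp only [hlay, ann, Set.mem_union, Set.mem_ofPred_eq]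
        constructor
        · rintro ⟨p, q⟩
          rcases lt_or_ge |z| (a * 2 ^ n * d) with h | h
          · exact Or.inl ⟨p, h⟩
          · exact Or.inr ⟨h, q⟩
        · rintro (⟨p, q⟩ | ⟨p, q⟩)
          · exact ⟨p, q.trans_le l2⟩
          · exact ⟨l1.trans p, q⟩
      have hdj : Disjoint (ann (a * d) (a * 2 ^ n * d)) (lay n) :=
        Set.disjoint_left.mpr fun z hz hz' => absurd hz.2 (not_lt.mpr hz'.1)
      rw [hu, Set.indicator_union_of_disjoint hdj]
  have hMi : ∀ k, Integrable (M k) := by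
    intro k
    have he : lay k = layer (a * 2 ^ k) d := by
      simp only [hlay, layer, ann, pow_succ]
      congr! 4
      ring
    have hMe : M k = Mf G m τ (a * 2 ^ k) := by simp only [hM, Mf, he]; rfl
    rw [hMe]
    exact (layer_nice hG hΛ hτ hδ (by positivity)).1.integrable
  have hlayer : ∀ k < i, ∃ P : ℝ → ℝ,
      (∀ s, P s = ({s | |s| ≤ ρ₀ ∧ h s ∈ lay k}).indicator (fun s => G (m + h s) / s) s) ∧
      Integrable P ∧ |(∫ s, P s) - τ 0 / d * ∫ y, M k y| ≤ Λ * (a * 2 ^ k) * (700 * X) := by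
    intro k hk
    set L := a * 2 ^ k with hL
    have hLb : 2 * L ≤ b := by
      have : (2 : ℝ) ^ (k + 1) ≤ 2 ^ i := pow_le_pow_right₀ one_le_two hk
      rw [pow_succ] at this
      simp only [hL, hb]; nlinarith
    have he : lay k = layer L d := by
      simp only [hlay, layer, ann, hL, pow_succ]
      congr! 4
      ring
    have hMe : M k = Mf G m τ L := by simp only [hM, Mf, he]; rfl
    rw [he, hMe]
    exact curve_layer hG hX hΛ hτ hh hδ (by positivity) (by linarith)
  choose P hPeq hPi hPb using hlayer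
  have hsplit : ∀ s, S₂.indicator (fun s => G (m + h s) / s) s =
      ∑ k : Fin i, P k k.isLt s := by
    intro s
    simp_rw [hPeq]
    rw [Fin.sum_univ_eq_sum_range (fun k =>
      ({s | |s| ≤ ρ₀ ∧ h s ∈ lay k}).indicator (fun s => G (m + h s) / s) s) i]
    by_cases hs : |s| ≤ ρ₀
    · have := htele i (h s)
      have hmul : ∀ k, ({s | |s| ≤ ρ₀ ∧ h s ∈ lay k}).indicator (fun s => G (m + h s) / s) s =
          M k (h s) * (h s / s) := by
        intro k
        by_cases hy : h s ∈ lay k
        · rw [Set.indicator_of_mem (show s ∈ {s | |s| ≤ ρ₀ ∧ h s ∈ lay k} from ⟨hs, hy⟩)]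
          simp only [hM, Set.indicator_of_mem hy]
          have : h s ≠ 0 := fun h0 => by
            have := hy.1; rw [h0, abs_zero] at this
            have : 0 < a * 2 ^ k * d := by positivity
            linarith
          field_simp
        · rw [Set.indicator_of_notMem (fun hmem : s ∈ {s | |s| ≤ ρ₀ ∧ h s ∈ lay k} => hy hmem.2)]
          simp [hM, hy]
      simp_rw [hmul, ← Finset.sum_mul, this, ← hb]
      by_cases hy : h s ∈ ann (a * d) (b * d)
      · rw [Set.indicator_of_mem (show s ∈ S₂ from ⟨hs, hy⟩), Set.indicator_of_mem hy]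
        have : h s ≠ 0 := fun h0 => by
          have := hy.1; rw [h0, abs_zero] at this
          have : 0 < a * d := by positivity
          linarith
        field_simp
      · rw [Set.indicator_of_notMem (fun hm : s ∈ S₂ => hy hm.2), Set.indicator_of_notMem hy, zero_mul]
    · rw [Set.indicator_of_notMem (fun hm : s ∈ S₂ => hs hm.1)]
      exact (Finset.sum_eq_zero fun k _ =>
        Set.indicator_of_notMem (fun hm : s ∈ {s | |s| ≤ ρ₀ ∧ h s ∈ lay k} => hs hm.1) _).symm
  have hmain : |∑ k : Fin i, ∫ y, M k y| ≤ 34 * X := by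
    rw [Fin.sum_univ_eq_sum_range (fun k => ∫ y, M k y) i,
      ← integral_finsetSum _ fun k _ => hMi k]
    simp_rw [htele i, ← hb]
    exact hX.hilbert hG (by positivity) (mul_le_mul_of_nonneg_right hab hδp.le)
  have hsum : |(∫ s, S₂.indicator (fun s => G (m + h s) / s) s) -
      τ 0 / d * ∑ k : Fin i, ∫ y, M k y| ≤ 44 * X := by
    simp_rw [hsplit]
    rw [integral_finsetSum _ fun (k : Fin i) _ => hPi k k.isLt, Finset.mul_sum, ← Finset.sum_sub_distrib]
    refine (Finset.abs_sum_le_sum_abs _ _).trans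
      ((Finset.sum_le_sum fun (k : Fin i) _ => hPb k k.isLt).trans ?_)
    rw [← Finset.sum_mul, ← Finset.mul_sum, ← Finset.mul_sum,
      Fin.sum_univ_eq_sum_range (fun k => (2 : ℝ) ^ k) i, geom_sum_eq (by norm_num : (2 : ℝ) ≠ 1)]
    have : Λ * (a * 2 ^ i) ≤ 1 / 128 := by
      calc Λ * (a * 2 ^ i) ≤ Λ * ((16 * Λ)⁻¹ / 8) :=
            mul_le_mul_of_nonneg_left (by rw [← hρ₀]; linarith) hΛ.le
        _ = 1 / 128 := by field_simp; ring
    have h2 : (0 : ℝ) ≤ Λ * a := by positivity
    rw [show ((2 : ℝ) ^ i - 1) / (2 - 1) = 2 ^ i - 1 by ring]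
    nlinarith
  have hsgn : |τ 0 / d * ∑ k : Fin i, ∫ y, M k y| ≤ 34 * X := by
    rw [abs_mul, abs_div, abs_of_pos hδp, ← hd, div_self hδp.ne', one_mul]
    exact hmain
  rw [abs_le] at hD hsum hsgn ⊢
  constructor <;> linarith [hD.1, hD.2, hsum.1, hsum.2, hsgn.1, hsgn.2]

end Curve

end

end Vale.Agent.P112
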