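import Vale.Agent.P112.Basic

/-!
# P112: the Poisson and conjugate Poisson maximal operators are bounded in L2

Both are handled by one identity: the pair correlation of either kernel is a Poisson kernel.
-/

namespace Vale.Agent.P112

open MeasureTheory Filter Set
open scoped Topology

noncomputable section

/-- Poisson kernel, up to the factor `π`. -/
def pp (e t : ℝ) : ℝ := e / (t ^ 2 + e ^ 2)

/-- Conjugate Poisson kernel, up to the factor `π`. -/
def kk (e t : ℝ) : ℝ := t / (t ^ 2 + e ^ 2)

def conv (K g : ℝ → ℝ) (u : ℝ) : ℝ := ∫ y, K (u - y) * g y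

variable {e A B : ℝ}

lemma den_pos (he : 0 < e) (t : ℝ) : 0 < t ^ 2 + e ^ 2 := by positivity

lemma pp_nonneg (he : 0 < e) (t : ℝ) : 0 ≤ pp e t := by unfold pp; positivity

@[fun_prop] lemma measurable_pp (e : ℝ) : Measurable (pp e) := by unfold pp; fun_prop
@[fun_prop] lemma measurable_kk (e : ℝ) : Measurable (kk e) := by unfold kk; fun_prop

lemma integral_pp (he : 0 < e) : Integrable (pp e) ∧ ∫ t, pp e t = Real.pi := by
  have h : pp e = fun t => e⁻¹ * (1 + (e⁻¹ * t) ^ 2)⁻¹ := by
    funext t; unfold pp; field_simp; ring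
  rw [h]
  refine ⟨(integrable_inv_one_add_sq.comp_mul_left' (inv_ne_zero he.ne')).const_mul _, ?_⟩
  rw [integral_const_mul, Measure.integral_comp_mul_left (fun t => (1 + t ^ 2)⁻¹),
    integral_univ_inv_one_add_sq, inv_inv, abs_of_pos he, smul_eq_mul]
  field_simp

lemma pp_sq_add_kk_sq (he : 0 < e) (t : ℝ) : pp e t ^ 2 + kk e t ^ 2 = e⁻¹ * pp e t := by
  have := den_pos he t
  unfold pp kk; field_simp; ring

lemma pp_le_inv (he : 0 < e) (t : ℝ) : pp e t ≤ e⁻¹ := by
  rw [pp, div_le_iff₀ (den_pos he t)]
  field_simp; nlinarith [sq_nonneg t]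

/-- The two kernels to which the maximal bound applies. -/
structure Good (ker : ℝ → ℝ → ℝ) : Prop where
  meas : ∀ e, Measurable (ker e)
  sq : ∀ e, 0 < e → ∀ t, ker e t ^ 2 ≤ e⁻¹ * pp e t
  pair : ∀ A B, 0 < A → 0 < B → ∀ d, d ≠ 0 →
    ∫ y, ker A y * ker B (y - d) = Real.pi * pp (A + B) d

lemma kk_sub_integrable (hA : 0 < A) (hB : 0 < B) (d : ℝ) :
    Integrable (fun y => pp A y * pp B (y - d)) ∧ Integrable (fun y => kk A y * kk B (y - d)) ∧
    Integrable (fun y => kk A y ^ 2) := by
  have iA := (integral_pp hA).1.const_mul A⁻¹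
  have iB := ((integral_pp hB).1.comp_sub_right d).const_mul B⁻¹
  refine ⟨?_, ?_, ?_⟩
  · refine (iA.add iB).mono' (by fun_prop) (Eventually.of_forall fun y => ?_)
    rw [Real.norm_eq_abs, abs_le]
    have := pp_sq_add_kk_sq hA y
    have := pp_sq_add_kk_sq hB (y - d)
    simp only [Pi.add_apply]
    constructor <;> nlinarith [sq_nonneg (pp A y + pp B (y - d)), sq_nonneg (pp A y - pp B (y - d)),
      sq_nonneg (kk A y), sq_nonneg (kk B (y - d))]
  · refine (iA.add iB).mono' (by fun_prop) (Eventually.of_forall fun y => ?_)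
    rw [Real.norm_eq_abs, abs_le]
    have := pp_sq_add_kk_sq hA y
    have := pp_sq_add_kk_sq hB (y - d)
    simp only [Pi.add_apply]
    constructor <;> nlinarith [sq_nonneg (kk A y + kk B (y - d)), sq_nonneg (kk A y - kk B (y - d)),
      sq_nonneg (pp A y), sq_nonneg (pp B (y - d))]
  · refine iA.mono' (by fun_prop) (Eventually.of_forall fun y => ?_)
    have := pp_sq_add_kk_sq hA y
    rw [Real.norm_eq_abs, abs_of_nonneg (sq_nonneg _)]
    nlinarith [sq_nonneg (pp A y)]

lemma tendsto_log_ratio (A B d : ℝ) (hA : 0 < A) (hB : 0 < B) (l : Filter ℝ)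
    (hl : Tendsto (fun y : ℝ => y⁻¹) l (𝓝 0)) (hl0 : ∀ᶠ y in l, y ≠ 0) :
    Tendsto (fun y => Real.log (y ^ 2 + A ^ 2) / 2 - Real.log ((y - d) ^ 2 + B ^ 2) / 2) l (𝓝 0) := by
  have h : Tendsto (fun y : ℝ => (1 + A ^ 2 * y⁻¹ ^ 2) / ((1 - d * y⁻¹) ^ 2 + B ^ 2 * y⁻¹ ^ 2)) l
      (𝓝 1) := by
    have hn : Tendsto (fun y : ℝ => 1 + A ^ 2 * y⁻¹ ^ 2) l (𝓝 1) := by
      simpa using ((hl.pow 2).const_mul (A ^ 2)).const_add 1
    have hd : Tendsto (fun y : ℝ => (1 - d * y⁻¹) ^ 2 + B ^ 2 * y⁻¹ ^ 2) l (𝓝 1) := by
      simpa using (((hl.const_mul d).const_sub 1).pow 2).add ((hl.pow 2).const_mul (B ^ 2))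
    simpa [Pi.div_def] using hn.div hd one_ne_zero
  have h2 := ((Real.continuousAt_log one_ne_zero).tendsto.comp h).div_const 2
  rw [Real.log_one, zero_div] at h2
  refine h2.congr' ?_
  filter_upwards [hl0] with y hy
  have e1 : (1 + A ^ 2 * y⁻¹ ^ 2) / ((1 - d * y⁻¹) ^ 2 + B ^ 2 * y⁻¹ ^ 2) =
      (y ^ 2 + A ^ 2) / ((y - d) ^ 2 + B ^ 2) := by
    field_simp
  simp only [Function.comp_apply]
  rw [e1, Real.log_div (den_pos hA y).ne' (den_pos hB _).ne']
  ring

lemma pair_identities (hA : 0 < A) (hB : 0 < B) {d : ℝ} (hd : d ≠ 0) :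
    (∫ y, kk A y * kk B (y - d) = Real.pi * pp (A + B) d) ∧
    (∫ y, pp A y * pp B (y - d) = Real.pi * pp (A + B) d) := by
  obtain ⟨ipp, ikk, -⟩ := kk_sub_integrable hA hB d
  have hdiff : ∀ s : ℝ, 0 < d ^ 2 + s ^ 2 := fun s => by positivity
  set D : ℝ → ℝ := fun y => kk A y - kk B (y - d) with hD
  have hsum : ∀ y, kk A y * kk B (y - d) + pp A y * pp B (y - d) =
      (-d * D y + (A + B) * (pp A y + pp B (y - d))) / (d ^ 2 + (A + B) ^ 2) := by
    intro y
    have := den_pos hA y
    have := den_pos hB (y - d)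
    simp only [hD, kk, pp]
    field_simp
    ring
  have hdif : ∀ y, kk A y * kk B (y - d) - pp A y * pp B (y - d) =
      (-d * D y + (A - B) * (pp A y - pp B (y - d))) / (d ^ 2 + (A - B) ^ 2) := by
    intro y
    have := den_pos hA y
    have := den_pos hB (y - d)
    have := hdiff (A - B)
    simp only [hD, kk, pp]
    field_simp
    ring
  have iA := (integral_pp hA).1
  have iB := (integral_pp hB).1.comp_sub_right d
  have iD : Integrable D := by
    have hh : D = fun y => -d⁻¹ * ((d ^ 2 + (A + B) ^ 2) *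
        (kk A y * kk B (y - d) + pp A y * pp B (y - d)) - (A + B) * (pp A y + pp B (y - d))) := by
      funext y
      rw [hsum]
      have := hdiff (A + B)
      field_simp
      ring
    rw [hh]
    exact (((ikk.add ipp).const_mul _).sub ((iA.add iB).const_mul _)).const_mul _
  have hD0 : ∫ y, D y = 0 := by
    have := integral_of_hasDerivAt_of_tendsto
      (f := fun y => Real.log (y ^ 2 + A ^ 2) / 2 - Real.log ((y - d) ^ 2 + B ^ 2) / 2) (f' := D)
      (m := 0) (n := 0) (fun y => ?_) iD
      (tendsto_log_ratio A B d hA hB _ tendsto_inv_atBot_zero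
        (eventually_lt_atBot 0 |>.mono fun y hy => ne_of_lt hy))
      (tendsto_log_ratio A B d hA hB _ tendsto_inv_atTop_zero
        (eventually_gt_atTop 0 |>.mono fun y hy => ne_of_gt hy))
    · simpa using this
    · have := den_pos hA y
      have := den_pos hB (y - d)
      have h1 : HasDerivAt (fun y => Real.log (y ^ 2 + A ^ 2) / 2) (2 * y / (y ^ 2 + A ^ 2) / 2) y := by
        have h : HasDerivAt (fun y : ℝ => y ^ 2 + A ^ 2) (2 * y) y := by
          simpa using (hasDerivAt_pow 2 y).add_const (A ^ 2)
        exact (h.log (den_pos hA y).ne').div_const 2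
      have h2 : HasDerivAt (fun y => Real.log ((y - d) ^ 2 + B ^ 2) / 2)
          (2 * (y - d) / ((y - d) ^ 2 + B ^ 2) / 2) y := by
        have h : HasDerivAt (fun y : ℝ => (y - d) ^ 2 + B ^ 2) (2 * (y - d)) y := by
          simpa using (((hasDerivAt_id y).sub_const d).fun_pow 2).add_const (B ^ 2)
        exact (h.log (den_pos hB (y - d)).ne').div_const 2
      refine (h1.sub h2).congr_deriv ?_
      simp only [hD, kk]
      ring
  have hI : ∫ y, pp B (y - d) = Real.pi := by
    rw [integral_sub_right_eq_self (pp B) d]; exact (integral_pp hB).2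
  have S1 : (∫ y, kk A y * kk B (y - d)) + ∫ y, pp A y * pp B (y - d) =
      2 * Real.pi * pp (A + B) d := by
    rw [← integral_add ikk ipp]
    simp_rw [hsum]
    rw [integral_div, integral_add (f := fun a => -d * D a)
      (g := fun a => (A + B) * (pp A a + pp B (a - d))) (iD.const_mul _)
      ((iA.add iB).const_mul _), integral_const_mul,
      integral_const_mul, hD0, integral_add iA iB, hI, (integral_pp hA).2, pp]
    field_simp
    ring
  have S2 : (∫ y, kk A y * kk B (y - d)) - ∫ y, pp A y * pp B (y - d) = 0 := by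
    rw [← integral_sub ikk ipp]
    simp_rw [hdif]
    rw [integral_div, integral_add (f := fun a => -d * D a)
      (g := fun a => (A - B) * (pp A a - pp B (a - d))) (iD.const_mul _)
      ((iA.sub iB).const_mul _), integral_const_mul,
      integral_const_mul, hD0, integral_sub iA iB, hI, (integral_pp hA).2]
    simp
  constructor <;> linarith

lemma good_kk : Good kk :=
  ⟨measurable_kk, fun e he t => by nlinarith [pp_sq_add_kk_sq he t, sq_nonneg (pp e t)],
    fun _ _ hA hB _ hd => (pair_identities hA hB hd).1⟩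

lemma good_pp : Good pp :=
  ⟨measurable_pp, fun e he t => by nlinarith [pp_sq_add_kk_sq he t, sq_nonneg (kk e t)],
    fun _ _ hA hB _ hd => (pair_identities hA hB hd).2⟩

section Max

variable {ker : ℝ → ℝ → ℝ} {g : ℝ → ℝ} {es : ℕ → ℝ}

/-- The maximum over the first `n` parameters. -/
def mx (ker : ℝ → ℝ → ℝ) (es : ℕ → ℝ) (g : ℝ → ℝ) : ℕ → ℝ → ℝ
  | 0 => fun _ => 0
  | n + 1 => fun u => max (mx ker es g n u) |conv (ker (es n)) g u|

def sel (ker : ℝ → ℝ → ℝ) (es : ℕ → ℝ) (g : ℝ → ℝ) : ℕ → ℝ → ℕ
  | 0 => fun _ => 0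
  | n + 1 => fun u => if mx ker es g n u < |conv (ker (es n)) g u| then n else sel ker es g n u

lemma mx_nonneg (n : ℕ) (u : ℝ) : 0 ≤ mx ker es g n u := by
  induction n with
  | zero => simp [mx]
  | succ n ih => exact le_max_of_le_left ih

lemma le_mx {n i : ℕ} (hi : i < n) (u : ℝ) : |conv (ker (es i)) g u| ≤ mx ker es g n u := by
  induction n with
  | zero => omega
  | succ n ih =>
    rcases Nat.lt_succ_iff_lt_or_eq.mp hi with h | h
    · exact le_max_of_le_left (ih h)
    · subst h; exact le_max_right _ _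

lemma sel_spec (n : ℕ) (u : ℝ) :
    mx ker es g n u ≤ |conv (ker (es (sel ker es g n u))) g u| ∧ (0 < n → sel ker es g n u < n) := by
  induction n with
  | zero => simp [mx]
  | succ n ih =>
    simp only [mx, sel]
    by_cases h : mx ker es g n u < |conv (ker (es n)) g u|
    · simp [h, h.le]
    · simp only [if_neg h]
      rw [max_eq_left (not_lt.mp h)]
      refine ⟨ih.1, fun _ => ?_⟩
      rcases Nat.eq_zero_or_pos n with h0 | h0
      · subst h0; simp [sel]
      · linarith [ih.2 h0]

lemma measurable_conv {K : ℝ → ℝ} (hK : Measurable K) (hg : Measurable g) :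
    Measurable (conv K g) := by
  have : StronglyMeasurable (Function.uncurry fun u y => K (u - y) * g y) :=
    (by fun_prop : Measurable (Function.uncurry fun u y => K (u - y) * g y)).stronglyMeasurable
  exact this.integral_prod_right.measurable

lemma measurable_mx (hker : Good ker) (hg : Measurable g) (n : ℕ) :
    Measurable (mx ker es g n) := by
  induction n with
  | zero => exact measurable_const
  | succ n ih => exact ih.max (measurable_conv (hker.meas _) hg).abs

lemma measurable_sel (hker : Good ker) (hg : Measurable g) (n : ℕ) :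
    Measurable (sel ker es g n) := by
  induction n with
  | zero => exact measurable_const
  | succ n ih =>
    exact Measurable.ite (measurableSet_lt (measurable_mx hker hg n)
      (measurable_conv (hker.meas _) hg).abs) measurable_const ih

lemma Good.abs_le (hker : Good ker) (he : 0 < e) (t : ℝ) : |ker e t| ≤ e⁻¹ := by
  have h1 := hker.sq e he t
  have h2 : e⁻¹ * pp e t ≤ e⁻¹ ^ 2 := by
    rw [pow_two]; exact mul_le_mul_of_nonneg_left (pp_le_inv he t) (by positivity)
  have h3 : |ker e t| ^ 2 ≤ e⁻¹ ^ 2 := by rw [sq_abs]; linarith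
  nlinarith [abs_nonneg (ker e t), inv_pos.mpr he]

lemma Good.conv_bdd (hker : Good ker) (hg : Integrable g) (he : 0 < e) (u : ℝ) :
    |conv (ker e) g u| ≤ e⁻¹ * ∫ y, |g y| := by
  rw [← integral_const_mul]
  refine abs_integral_le_integral_abs.trans ?_
  refine integral_mono_of_nonneg (Eventually.of_forall fun y => abs_nonneg _)
    (hg.abs.const_mul _) (Eventually.of_forall fun y => ?_)
  simp only [abs_mul]
  exact mul_le_mul_of_nonneg_right (hker.abs_le he _) (abs_nonneg _)

/-- The `L2` norm of a sum of kernel potentials, by the pair identity. -/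
lemma potential_sq (hker : Good ker) (hes : ∀ i, 0 < es i) (n : ℕ) (b : ℕ → ℝ → ℝ)
    (hb : ∀ i, Nice volume (b i)) :
    Integrable (fun y => (∑ i ∈ Finset.range n, ∫ u, ker (es i) (u - y) * b i u) ^ 2) ∧
    ∫ y, (∑ i ∈ Finset.range n, ∫ u, ker (es i) (u - y) * b i u) ^ 2 ≤
      2 * Real.pi * ∑ i ∈ Finset.range n,
        ∫ u, |b i u| * conv (pp (es i)) (fun x => ∑ l ∈ Finset.range n, |b l x|) u := by
  set P : ℝ → ℝ × ℝ → ℕ → ℕ → ℝ := fun y q i l =>
    (ker (es i) (q.1 - y) * b i q.1) * (ker (es l) (q.2 - y) * b l q.2) with hPdef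
  have hm := hker.meas
  have hbm := fun i => (hb i).meas
  have hPI : ∀ i l, Integrable (fun z : ℝ × (ℝ × ℝ) => P z.1 z.2 i l)
      (volume.prod (volume.prod volume)) := by
    intro i l
    rw [integrable_prod_iff' (by fun_prop)]
    have hmj : ∀ q : ℝ × ℝ, Integrable (fun y => P y q i l) ∧
        ∫ y, ‖P y q i l‖ ≤ |b i q.1| * |b l q.2| *
          ((es i)⁻¹ * Real.pi + (es l)⁻¹ * Real.pi) := by
      intro q
      have iA := ((integral_pp (hes i)).1.comp_sub_left q.1).const_mul (es i)⁻¹
      have iB := ((integral_pp (hes l)).1.comp_sub_left q.2).const_mul (es l)⁻¹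
      have bd : ∀ y, ‖P y q i l‖ ≤ |b i q.1| * |b l q.2| *
          ((es i)⁻¹ * pp (es i) (q.1 - y) + (es l)⁻¹ * pp (es l) (q.2 - y)) := by
        intro y
        simp only [hPdef, Real.norm_eq_abs, abs_mul]
        have h1 := hker.sq _ (hes i) (q.1 - y)
        have h2 := hker.sq _ (hes l) (q.2 - y)
        have hc : |ker (es i) (q.1 - y)| * |ker (es l) (q.2 - y)| ≤
            (es i)⁻¹ * pp (es i) (q.1 - y) + (es l)⁻¹ * pp (es l) (q.2 - y) := by
          nlinarith [sq_nonneg (|ker (es i) (q.1 - y)| - |ker (es l) (q.2 - y)|),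
            sq_abs (ker (es i) (q.1 - y)), sq_abs (ker (es l) (q.2 - y))]
        calc _ = |b i q.1| * |b l q.2| * (|ker (es i) (q.1 - y)| * |ker (es l) (q.2 - y)|) := by ring
          _ ≤ _ := mul_le_mul_of_nonneg_left hc (by positivity)
      refine ⟨((iA.add iB).const_mul _).mono' (by fun_prop) (Eventually.of_forall bd),
        (integral_mono_of_nonneg (Eventually.of_forall fun y => norm_nonneg _)
          ((iA.add iB).const_mul _) (Eventually.of_forall bd)).trans (le_of_eq ?_)⟩
      simp only [Pi.add_apply]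
      rw [integral_const_mul, integral_add iA iB, integral_const_mul, integral_const_mul,
        integral_sub_left_eq_self (pp (es i)), integral_sub_left_eq_self (pp (es l)),
        (integral_pp (hes i)).2, (integral_pp (hes l)).2]
    refine ⟨Eventually.of_forall fun q => (hmj q).1, ?_⟩
    refine (((hb i).abs.integrable.mul_prod (hb l).abs.integrable).mul_const
      ((es i)⁻¹ * Real.pi + (es l)⁻¹ * Real.pi)).mono' ?_ ?_
    · exact ((by fun_prop : Measurable fun z : (ℝ × ℝ) × ℝ => ‖P z.2 z.1 i l‖).stronglyMeasurable.integral_prod_right).aestronglyMeasurable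
    · refine Eventually.of_forall fun q => ?_
      rw [Real.norm_eq_abs, abs_of_nonneg (integral_nonneg fun y => norm_nonneg _)]
      exact (hmj q).2
  have hsq : (fun y => (∑ i ∈ Finset.range n, ∫ u, ker (es i) (u - y) * b i u) ^ 2) =
      fun y => ∑ i ∈ Finset.range n, ∑ l ∈ Finset.range n, ∫ q, P y q i l
        ∂(volume.prod volume) := by
    funext y
    rw [sq, Finset.sum_mul_sum]
    exact Finset.sum_congr rfl fun i _ => Finset.sum_congr rfl fun l _ =>
      (integral_prod_mul _ _).symm
  rw [hsq]
  have hint := fun i l => (hPI i l).integral_prod_left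
  refine ⟨integrable_finsetSum _ fun i _ => integrable_finsetSum _ fun l _ => hint i l, ?_⟩
  rw [integral_finsetSum _ fun i _ => integrable_finsetSum _ fun l _ => hint i l]
  simp_rw [integral_finsetSum _ fun l _ => hint _ l]
  set T : ℕ → ℕ → ℝ := fun i l => ∫ u, |b i u| * conv (pp (es i)) (fun x => |b l x|) u with hT
  have hTint : ∀ i l, Integrable (fun q : ℝ × ℝ => |b i q.1| * |b l q.2| * pp (es i) (q.1 - q.2))
      (volume.prod volume) := fun i l =>
    ((hb i).abs.integrable.mul_prod (hb l).abs.integrable).mul_bdd (c := (es i)⁻¹)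
      (Measurable.aestronglyMeasurable (by fun_prop)) (Eventually.of_forall fun q => by
        rw [Real.norm_eq_abs, abs_of_nonneg (pp_nonneg (hes i) _)]; exact pp_le_inv (hes i) _)
  have hTq : ∀ i l, T i l = ∫ q : ℝ × ℝ, |b i q.1| * |b l q.2| * pp (es i) (q.1 - q.2)
      ∂(volume.prod volume) := by
    intro i l
    rw [integral_prod _ (hTint i l)]
    simp only [hT, conv]
    congr 1; funext u
    rw [← integral_const_mul]
    congr 1; funext v; ring
  have key : ∀ i l, (∫ y, ∫ q, P y q i l ∂(volume.prod volume)) ≤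
      Real.pi * (T i l + T l i) := by
    intro i l
    rw [integral_integral_swap (hPI i l), hTq i l, hTq l i,
      ← integral_prod_swap (fun q : ℝ × ℝ => |b l q.1| * |b i q.2| * pp (es l) (q.1 - q.2)),
      ← integral_add (hTint i l)
        (g := fun q : ℝ × ℝ =>
          |b l (Prod.swap q).1| * |b i (Prod.swap q).2| * pp (es l) ((Prod.swap q).1 - (Prod.swap q).2))
        ((hTint l i).swap), ← integral_const_mul]
    refine integral_mono_ae (hPI i l).integral_prod_right
      (((hTint i l).add ((hTint l i).swap)).const_mul _) ?_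
    have hne : ∀ᵐ q : ℝ × ℝ ∂(volume.prod volume), q.1 ≠ q.2 := by
      have hms : MeasurableSet {q : ℝ × ℝ | q.1 ≠ q.2} :=
        (measurableSet_eq_fun measurable_fst measurable_snd).compl
      rw [Measure.ae_prod_iff_ae_ae hms]
      exact Eventually.of_forall fun u => (Measure.ae_ne volume u).mono fun v hv => hv.symm
    filter_upwards [hne] with q hq
    have hval : ∫ y, P y q i l =
        b i q.1 * b l q.2 * (Real.pi * pp (es i + es l) (q.1 - q.2)) := by
      rw [← hker.pair _ _ (hes i) (hes l) _ (sub_ne_zero.mpr hq), ← integral_const_mul,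
        ← integral_sub_left_eq_self (fun y => b i q.1 * b l q.2 *
          (ker (es i) y * ker (es l) (y - (q.1 - q.2)))) volume q.1]
      congr 1; funext y
      simp only [hPdef]
      rw [show q.1 - y - (q.1 - q.2) = q.2 - y by ring]; ring
    rw [hval]
    have hS : pp (es i + es l) (q.1 - q.2) ≤ pp (es i) (q.1 - q.2) + pp (es l) (q.2 - q.1) := by
      have h1 := hes i
      have h2 := hes l
      unfold pp
      rw [show (q.2 - q.1) ^ 2 = (q.1 - q.2) ^ 2 by ring, add_div]
      gcongr <;> linarith
    have hS0 : 0 ≤ pp (es i + es l) (q.1 - q.2) := pp_nonneg (add_pos (hes i) (hes l)) _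
    calc b i q.1 * b l q.2 * (Real.pi * pp (es i + es l) (q.1 - q.2))
        ≤ |b i q.1| * |b l q.2| * (Real.pi * pp (es i + es l) (q.1 - q.2)) := by
          rw [← abs_mul]; exact mul_le_mul_of_nonneg_right (le_abs_self _) (by positivity)
      _ ≤ |b i q.1| * |b l q.2| * (Real.pi * (pp (es i) (q.1 - q.2) + pp (es l) (q.2 - q.1))) := by
          gcongr
      _ = _ := by simp only [Prod.swap]; ring
  refine (Finset.sum_le_sum fun i _ => Finset.sum_le_sum fun l _ => key i l).trans (le_of_eq ?_)
  have hsum : ∀ i, ∫ u, |b i u| * conv (pp (es i)) (fun x => ∑ l ∈ Finset.range n, |b l x|) u =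
      ∑ l ∈ Finset.range n, T i l := by
    intro i
    have hc : ∀ u, conv (pp (es i)) (fun x => ∑ l ∈ Finset.range n, |b l x|) u =
        ∑ l ∈ Finset.range n, conv (pp (es i)) (fun x => |b l x|) u := by
      intro u
      simp only [conv, Finset.mul_sum]
      exact integral_finsetSum _ fun l _ => (hb l).abs.integrable.bdd_mul (c := (es i)⁻¹)
        (Measurable.aestronglyMeasurable (by fun_prop)) (Eventually.of_forall fun y => by
          rw [Real.norm_eq_abs]; exact good_pp.abs_le (hes i) _)
    simp_rw [hc, Finset.mul_sum]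
    refine integral_finsetSum _ fun l _ => ?_
    exact (hb i).abs.integrable.mul_bdd (c := (es i)⁻¹ * ∫ y, |b l y|)
      ((measurable_conv (measurable_pp _) (hbm l).abs).aestronglyMeasurable)
      (Eventually.of_forall fun u => by
        simpa using good_pp.conv_bdd (hb l).abs.integrable (hes i) u)
  simp_rw [hsum, mul_add, Finset.sum_add_distrib, ← Finset.mul_sum]
  rw [Finset.sum_comm (f := fun i l => T l i)]
  ring

/-- `C` bounds the Poisson maximal operator over the first `n` parameters. -/
def MaxBound (ker : ℝ → ℝ → ℝ) (es : ℕ → ℝ) (n : ℕ) (C : ℝ) : Prop :=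
  ∀ g : ℝ → ℝ, Nice volume g → Integrable (fun u => mx ker es g n u ^ 2) ∧
    ∫ u, mx ker es g n u ^ 2 ≤ C ^ 2 * ∫ u, g u ^ 2

lemma maxBound_step (hker : Good ker) (hes : ∀ i, 0 < es i) {n : ℕ} {C : ℝ} (hC : 0 ≤ C)
    (hP : MaxBound pp es n C) : MaxBound ker es n (Real.sqrt (2 * Real.pi * C)) := by
  intro g hg
  rw [Real.sq_sqrt (by positivity)]
  suffices h : ∀ R : ℝ, IntegrableOn (fun u => mx ker es g n u ^ 2) (Icc (-R) R) ∧
      ∫ u in Icc (-R) R, mx ker es g n u ^ 2 ≤ 2 * Real.pi * C * ∫ u, g u ^ 2 by
    have hcov : AECover volume atTop (fun R : ℝ => Icc (-R) R) :=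
      aecover_Icc tendsto_neg_atTop_atBot tendsto_id
    have hi : Integrable (fun u => mx ker es g n u ^ 2) :=
      hcov.integrable_of_integral_norm_bounded (2 * Real.pi * C * ∫ u, g u ^ 2) (fun R => (h R).1)
        (Eventually.of_forall fun R => by simpa [Real.norm_eq_abs, abs_of_nonneg] using (h R).2)
    exact ⟨hi, le_of_tendsto (hcov.integral_tendsto_of_countably_generated hi)
      (Eventually.of_forall fun R => (h R).2)⟩
  intro R
  rcases Nat.eq_zero_or_pos n with hn | hn
  · subst hn
    have : 0 ≤ 2 * Real.pi * C * ∫ u, g u ^ 2 :=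
      mul_nonneg (by positivity) (integral_nonneg fun u => sq_nonneg _)
    simp [mx, this]
  set S : ℕ → Set ℝ := fun i => Icc (-R) R ∩ {u | sel ker es g n u = i} with hSdef
  have hSm : ∀ i, MeasurableSet (S i) := fun i => measurableSet_Icc.inter
    (measurable_sel hker hg.meas n (measurableSet_singleton i))
  set b : ℕ → ℝ → ℝ := fun i => (S i).indicator (conv (ker (es i)) g) with hbdef
  have hb : ∀ i, Nice volume (b i) := by
    intro i
    have hm := measurable_conv (hker.meas (es i)) hg.meas
    refine ⟨hm.indicator (hSm i), ?_, (es i)⁻¹ * ∫ y, |g y|, ?_, fun u => ?_⟩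
    · rw [integrable_indicator_iff (hSm i)]
      exact IntegrableOn.of_bound ((measure_mono inter_subset_left).trans_lt measure_Icc_lt_top)
        hm.aestronglyMeasurable _ (Eventually.of_forall fun u => by
          simpa using hker.conv_bdd hg.integrable (hes i) u)
    · exact mul_nonneg (inv_nonneg.mpr (hes i).le) (integral_nonneg fun y => abs_nonneg _)
    · by_cases hu : u ∈ S i
      · simp [hbdef, hu, hker.conv_bdd hg.integrable (hes i) u]
      · simp [hbdef, hu, mul_nonneg (inv_nonneg.mpr (hes i).le)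
          (integral_nonneg fun y => abs_nonneg (g y))]
  set U : ℝ → ℝ := fun u => ∑ l ∈ Finset.range n, |b l u| with hUdef
  have hU : ∀ u, U u = (Icc (-R) R).indicator (mx ker es g n) u := by
    intro u
    have hlt := (sel_spec (ker := ker) (es := es) (g := g) n u).2 hn
    simp only [hUdef]
    rw [Finset.sum_eq_single_of_mem _ (Finset.mem_range.mpr hlt)]
    · by_cases hu : u ∈ Icc (-R) R
      · have : u ∈ S (sel ker es g n u) := ⟨hu, rfl⟩
        simp only [hbdef, Set.indicator_of_mem this, Set.indicator_of_mem hu]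
        exact le_antisymm (le_mx hlt u) (sel_spec n u).1
      · have : u ∉ S (sel ker es g n u) := fun h => hu h.1
        simp [hbdef, this, hu]
    · intro l _ hl
      have : u ∉ S l := fun h => hl h.2.symm
      simp [hbdef, this]
  have hUn : Nice volume U := by
    have : ∀ s : Finset ℕ, Nice volume (fun u => ∑ l ∈ s, |b l u|) := fun s => by
      classical
      induction s using Finset.induction_on with
      | empty => simpa using (⟨measurable_const, integrable_zero _ _ _, 0, le_rfl, by simp⟩ :
          Nice volume fun _ : ℝ => (0 : ℝ))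
      | insert a s ha ih => simpa [Finset.sum_insert ha] using (hb a).abs.add ih
    exact this _
  have hX : ∫ u in Icc (-R) R, mx ker es g n u ^ 2 = ∫ u, U u ^ 2 := by
    rw [← integral_indicator measurableSet_Icc]
    congr 1; funext u
    by_cases hu : u ∈ Icc (-R) R <;> simp [hU, hu]
  refine ⟨(integrable_indicator_iff measurableSet_Icc).mp (hUn.sq_integrable.congr
    (Eventually.of_forall fun u => by by_cases hu : u ∈ Icc (-R) R <;> simp [hU, hu])), ?_⟩
  rw [hX]
  set Z : ℝ → ℝ := fun y => ∑ i ∈ Finset.range n, ∫ u, ker (es i) (u - y) * b i u with hZdef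
  obtain ⟨hZi, hZ⟩ := potential_sq hker hes n b hb
  obtain ⟨hMi, hM⟩ := hP U hUn
  have hZm : Measurable Z := Finset.measurable_fun_sum _ fun i _ => by
    have : Measurable (Function.uncurry fun y u => ker (es i) (u - y) * b i u) := by
      have := hker.meas (es i)
      have := (hb i).meas
      fun_prop
    exact this.stronglyMeasurable.integral_prod_right.measurable
  set X := ∫ u, U u ^ 2 with hXdef
  have hX0 : 0 ≤ X := integral_nonneg fun u => sq_nonneg _
  have hG0 : 0 ≤ ∫ u, g u ^ 2 := integral_nonneg fun u => sq_nonneg _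
  have hcm : ∀ i, Integrable (fun u => |b i u| * conv (pp (es i)) U u) := fun i =>
    (hb i).abs.integrable.mul_bdd (c := (es i)⁻¹ * ∫ y, |U y|)
      ((measurable_conv (measurable_pp _) hUn.meas).aestronglyMeasurable)
      (Eventually.of_forall fun u => by simpa using good_pp.conv_bdd hUn.integrable (hes i) u)
  have hUM : Integrable (fun u => U u * mx pp es U n u) := by
    refine (hUn.sq_integrable.add hMi).mono'
      (hUn.meas.mul (measurable_mx good_pp hUn.meas n)).aestronglyMeasurable
      (Eventually.of_forall fun u => ?_)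
    rw [Real.norm_eq_abs, abs_le]
    simp only [Pi.add_apply]
    constructor <;>
      nlinarith [sq_nonneg (U u + mx pp es U n u), sq_nonneg (U u - mx pp es U n u)]
  have hZ2 : ∫ y, Z y ^ 2 ≤ 2 * Real.pi * C * X := by
    calc ∫ y, Z y ^ 2 ≤ 2 * Real.pi * ∑ i ∈ Finset.range n,
          ∫ u, |b i u| * conv (pp (es i)) U u := hZ
      _ ≤ 2 * Real.pi * ∫ u, U u * mx pp es U n u := by
          gcongr
          rw [← integral_finsetSum _ fun i _ => hcm i]
          refine integral_mono (integrable_finsetSum _ fun i _ => hcm i) hUM fun u => ?_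
          show _ ≤ (∑ l ∈ Finset.range n, |b l u|) * mx pp es U n u
          rw [Finset.sum_mul]
          exact Finset.sum_le_sum fun i hi => mul_le_mul_of_nonneg_left
            ((le_abs_self _).trans (le_mx (Finset.mem_range.mp hi) u)) (abs_nonneg _)
      _ ≤ 2 * Real.pi * (Real.sqrt X * Real.sqrt (C ^ 2 * X)) := by
          gcongr
          refine (le_abs_self _).trans ((abs_integral_mul_le_sqrt hUn.meas.aestronglyMeasurable
            (measurable_mx good_pp hUn.meas n).aestronglyMeasurable hUn.sq_integrable hMi).trans ?_)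
          gcongr
      _ = _ := by
          rw [Real.sqrt_mul (sq_nonneg C), Real.sqrt_sq hC]
          linear_combination (2 * Real.pi * C) * Real.mul_self_sqrt hX0
  have hkey : X = ∫ y, g y * Z y := by
    have hI : ∀ i, Integrable
        (fun q : ℝ × ℝ => b i q.1 * g q.2 * ker (es i) (q.1 - q.2)) (volume.prod volume) := by
      intro i
      have := hker.meas (es i)
      exact ((hb i).integrable.mul_prod hg.integrable).mul_bdd (c := (es i)⁻¹)
        (Measurable.aestronglyMeasurable (by fun_prop))
        (Eventually.of_forall fun q => by simpa using hker.abs_le (hes i) _)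
    have hb2 : ∀ u, U u ^ 2 = ∑ i ∈ Finset.range n, b i u * conv (ker (es i)) g u := by
      intro u
      have hlt := (sel_spec (ker := ker) (es := es) (g := g) n u).2 hn
      rw [hU, Finset.sum_eq_single_of_mem _ (Finset.mem_range.mpr hlt)]
      · by_cases hu : u ∈ Icc (-R) R
        · have h' : u ∈ S (sel ker es g n u) := ⟨hu, rfl⟩
          rw [Set.indicator_of_mem hu]
          simp only [hbdef, Set.indicator_of_mem h']
          rw [le_antisymm (sel_spec n u).1 (le_mx hlt u), sq_abs, sq]
        · have h' : u ∉ S (sel ker es g n u) := fun h => hu h.1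
          simp [hbdef, h', hu]
      · intro l _ hl
        have : u ∉ S l := fun h => hl h.2.symm
        simp [hbdef, this]
    have hbc : ∀ i, Integrable (fun u => b i u * conv (ker (es i)) g u) := fun i =>
      (hb i).integrable.mul_bdd (c := (es i)⁻¹ * ∫ y, |g y|)
        ((measurable_conv (hker.meas _) hg.meas).aestronglyMeasurable)
        (Eventually.of_forall fun u => by simpa using hker.conv_bdd hg.integrable (hes i) u)
    have hswap : ∀ i, ∫ u, b i u * conv (ker (es i)) g u =
        ∫ y, g y * ∫ u, ker (es i) (u - y) * b i u := by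
      intro i
      calc ∫ u, b i u * conv (ker (es i)) g u
          = ∫ u, ∫ y, b i u * g y * ker (es i) (u - y) := by
            congr 1; funext u; rw [conv, ← integral_const_mul]; congr 1; funext y; ring
        _ = ∫ y, ∫ u, b i u * g y * ker (es i) (u - y) :=
            integral_integral_swap (f := fun u y => b i u * g y * ker (es i) (u - y)) (hI i)
        _ = _ := by
            congr 1; funext y; rw [← integral_const_mul]; congr 1; funext u; ring
    have hgZ : ∀ i, Integrable (fun y => g y * ∫ u, ker (es i) (u - y) * b i u) := by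
      intro i
      refine (hI i).integral_prod_right.congr (Eventually.of_forall fun y => ?_)
      simp only
      rw [← integral_const_mul]; congr 1; funext u; ring
    rw [hXdef]
    simp_rw [hb2]
    rw [integral_finsetSum _ fun i _ => hbc i]
    simp only [hZdef, Finset.mul_sum]
    rw [integral_finsetSum _ fun i _ => hgZ i]
    exact Finset.sum_congr rfl fun i _ => hswap i
  have h3 : X ≤ Real.sqrt (∫ u, g u ^ 2) * Real.sqrt (2 * Real.pi * C * X) := by
    calc X = ∫ y, g y * Z y := hkey
      _ ≤ _ := le_abs_self _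
      _ ≤ Real.sqrt (∫ u, g u ^ 2) * Real.sqrt (∫ y, Z y ^ 2) :=
        abs_integral_mul_le_sqrt hg.meas.aestronglyMeasurable hZm.aestronglyMeasurable
          hg.sq_integrable hZi
      _ ≤ _ := by gcongr
  rw [← Real.sqrt_mul hG0] at h3
  rcases hX0.eq_or_lt with h | h
  · rw [← h]; positivity
  · have := (Real.le_sqrt hX0 (by positivity)).mp h3
    nlinarith

end Max

end

end Vale.Agent.P112
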