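import Vale.Agent.P112.Shear

/-!
# P112: the square-root logarithmic bound in the slope model

The transform along the lines `(1, σ)` with truncation between `ε` and `ε 2^n` has squared
`L2` norm `O(n)`, by expanding the adjoint over dyadic scales.
-/

namespace Vale.Agent.P112

open MeasureTheory Filter Set
open scoped Topology ENNReal

noncomputable section

/-- The truncated kernel `1/t`. -/
def cut (a b : ℝ) : ℝ → ℝ := (ann a b).indicator fun t => t⁻¹

def opT (σ : ℝ × ℝ → ℝ) (k : ℝ → ℝ) (f : ℝ × ℝ → ℝ) (p : ℝ × ℝ) : ℝ :=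
  ∫ t, k t * f (shift σ t p)

def opS (σ : ℝ × ℝ → ℝ) (Λ : ℝ) (k : ℝ → ℝ) (g : ℝ × ℝ → ℝ) (p : ℝ × ℝ) : ℝ :=
  ∫ t, k t * g (back σ Λ t p)

lemma measurable_cut (a b : ℝ) : Measurable (cut a b) :=
  measurable_inv.indicator (measurableSet_ann a b)

lemma abs_cut_le {a b : ℝ} (ha : 0 < a) (t : ℝ) :
    |cut a b t| ≤ (ann a b).indicator (fun _ => a⁻¹) t := by
  by_cases h : t ∈ ann a b
  · simp only [cut, Set.indicator_of_mem h, abs_inv]
    exact inv_anti₀ ha h.1
  · simp [cut, h]

lemma volume_real_ann_le {a b : ℝ} (hb : 0 ≤ b) : volume.real (ann a b) ≤ 2 * b := by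
  calc volume.real (ann a b) ≤ volume.real (Icc (-b) b) :=
        measureReal_mono (fun _ hy => abs_le.mp hy.2.le) measure_Icc_lt_top.ne
    _ = 2 * b := by simp [Real.volume_real_Icc_of_le (show -b ≤ b by linarith)]; ring

lemma integrable_cut {a b : ℝ} (ha : 0 < a) : Integrable (cut a b) :=
  ((integrable_indicator_iff (measurableSet_ann a b)).mpr
    (integrableOn_const (C := a⁻¹) (volume_ann_lt_top a b).ne)).mono'
    (measurable_cut a b).aestronglyMeasurable
    (Eventually.of_forall fun t => (Real.norm_eq_abs _).trans_le (abs_cut_le ha t))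

lemma integral_abs_cut_double {L : ℝ} (hL : 0 < L) : ∫ t, |cut L (2 * L) t| ≤ 4 := by
  refine (integral_mono (integrable_cut hL).abs ((integrable_indicator_iff (measurableSet_ann _ _)).mpr
    (integrableOn_const (volume_ann_lt_top _ _).ne)) (abs_cut_le hL)).trans ?_
  rw [integral_indicator (measurableSet_ann _ _), setIntegral_const, smul_eq_mul,
    ← div_eq_mul_inv, div_le_iff₀ hL]
  linarith [volume_real_ann_le (a := L) (b := 2 * L) (by linarith)]

lemma integral_abs_mul_cut {a b : ℝ} (hb : 0 ≤ b) :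
    ∫ t, |cut a b t| * |t| ≤ 2 * b := by
  have hI : Integrable ((ann a b).indicator fun _ : ℝ => (1 : ℝ)) :=
    (integrable_indicator_iff (measurableSet_ann _ _)).mpr
      (integrableOn_const (volume_ann_lt_top _ _).ne)
  refine (integral_mono_of_nonneg (Eventually.of_forall fun t => by positivity) hI
    (Eventually.of_forall fun t => ?_)).trans ?_
  · by_cases h : t ∈ ann a b
    · simp only [cut, Set.indicator_of_mem h, abs_inv]
      rcases eq_or_ne t 0 with h0 | h0 <;> simp [h0]
    · simp [cut, h]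
  · rw [integral_indicator (measurableSet_ann _ _), setIntegral_const, smul_eq_mul, mul_one]
    exact volume_real_ann_le hb

lemma cut_add {ε : ℝ} (hε : 0 < ε) (n : ℕ) (t : ℝ) :
    cut ε (ε * 2 ^ (n + 1)) t = cut ε (ε * 2 ^ n) t + cut (ε * 2 ^ n) (2 * (ε * 2 ^ n)) t := by
  have h1 : ε ≤ ε * 2 ^ n := le_mul_of_one_le_right hε.le (one_le_pow₀ one_le_two)
  have h2 : ε * 2 ^ (n + 1) = 2 * (ε * 2 ^ n) := by rw [pow_succ]; ring
  rw [h2]
  have hu : ann ε (2 * (ε * 2 ^ n)) = ann ε (ε * 2 ^ n) ∪ ann (ε * 2 ^ n) (2 * (ε * 2 ^ n)) := by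
    ext z
    simp only [ann, Set.mem_union, Set.mem_ofPred_eq]
    constructor
    · rintro ⟨p, q⟩
      rcases lt_or_ge |z| (ε * 2 ^ n) with h | h
      · exact Or.inl ⟨p, h⟩
      · exact Or.inr ⟨h, q⟩
    · rintro (⟨p, q⟩ | ⟨p, q⟩)
      · exact ⟨p, by linarith⟩
      · exact ⟨h1.trans p, q⟩
  have hd : Disjoint (ann ε (ε * 2 ^ n)) (ann (ε * 2 ^ n) (2 * (ε * 2 ^ n))) :=
    Set.disjoint_left.mpr fun z hz hz' => absurd hz.2 (not_lt.mpr hz'.1)
  simp only [cut, hu, Set.indicator_union_of_disjoint hd]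

lemma cut_zero (ε : ℝ) : cut ε (ε * 2 ^ 0) = fun _ => 0 := by
  funext t
  apply Set.indicator_of_notMem
  simp [ann]

lemma integral_abs_cut_pow {ε : ℝ} (hε : 0 < ε) (n : ℕ) :
    ∫ t, |cut ε (ε * 2 ^ n) t| ≤ 4 * n := by
  induction n with
  | zero => rw [cut_zero]; simp
  | succ n ih =>
    have i1 := (integrable_cut (b := ε * 2 ^ n) hε).abs
    have i2 := (integrable_cut (b := 2 * (ε * 2 ^ n)) (show 0 < ε * 2 ^ n by positivity)).abs
    calc ∫ t, |cut ε (ε * 2 ^ (n + 1)) t|
        ≤ ∫ t, (|cut ε (ε * 2 ^ n) t| + |cut (ε * 2 ^ n) (2 * (ε * 2 ^ n)) t|) :=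
          integral_mono (integrable_cut hε).abs (i1.add i2) fun t => by
            simp only [cut_add hε n t]; exact abs_add_le _ _
      _ ≤ _ := by
          rw [integral_add i1 i2]
          have := integral_abs_cut_double (show 0 < ε * 2 ^ n by positivity)
          push_cast; linarith

/-- Continuity in `L1` of the dyadic kernel. -/
lemma cut_modulus {L : ℝ} (hL : 0 < L) (s : ℝ) :
    ∫ p, |cut L (2 * L) (p + s) - cut L (2 * L) p| ≤ 12 * |s| / L := by
  let Z : ℝ → ℝ → ℝ := fun R => {p : ℝ | |(|p| - R)| ≤ |s|}.indicator fun _ => L⁻¹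
  have hsub : ∀ R, {p : ℝ | |(|p| - R)| ≤ |s|} ⊆ Icc (R - |s|) (R + |s|) ∪ Icc (-R - |s|) (-R + |s|) := by
    intro R p hp
    obtain ⟨a, b⟩ := abs_le.mp (show |(|p| - R)| ≤ |s| from hp)
    rcases le_total 0 p with h | h
    · rw [abs_of_nonneg h] at a b; exact Or.inl ⟨by linarith, by linarith⟩
    · rw [abs_of_nonpos h] at a b; exact Or.inr ⟨by linarith, by linarith⟩
  have hms : ∀ R, MeasurableSet {p : ℝ | |(|p| - R)| ≤ |s|} := fun R =>
    measurableSet_le (by fun_prop) measurable_const
  have hfin : ∀ R, volume {p : ℝ | |(|p| - R)| ≤ |s|} < ⊤ := fun R =>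
    (measure_mono (hsub R)).trans_lt ((measure_union_le _ _).trans_lt
      (ENNReal.add_lt_top.mpr ⟨measure_Icc_lt_top, measure_Icc_lt_top⟩))
  have iZ : ∀ R, Integrable (Z R) := fun R =>
    (integrable_indicator_iff (hms R)).mpr (integrableOn_const (hfin R).ne)
  have bZ : ∀ R, ∫ p, Z R p ≤ 4 * |s| / L := by
    intro R
    rw [integral_indicator (hms R), setIntegral_const, smul_eq_mul, ← div_eq_mul_inv]
    gcongr
    calc volume.real {p : ℝ | |(|p| - R)| ≤ |s|}
        ≤ volume.real (Icc (R - |s|) (R + |s|) ∪ Icc (-R - |s|) (-R + |s|)) :=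
          measureReal_mono (hsub R) (measure_union_lt_top measure_Icc_lt_top measure_Icc_lt_top).ne
      _ ≤ _ + _ := measureReal_union_le _ _
      _ = 4 * |s| := by
          rw [Real.volume_real_Icc_of_le (by linarith [abs_nonneg s]),
            Real.volume_real_Icc_of_le (by linarith [abs_nonneg s])]
          ring
  let V : ℝ → ℝ := (ann L (2 * L)).indicator fun _ => |s| / L ^ 2
  have iV : Integrable V := (integrable_indicator_iff (measurableSet_ann _ _)).mpr
    (integrableOn_const (volume_ann_lt_top _ _).ne)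
  have bV : ∫ p, V p ≤ 4 * |s| / L := by
    rw [integral_indicator (measurableSet_ann _ _), setIntegral_const, smul_eq_mul]
    calc volume.real (ann L (2 * L)) * (|s| / L ^ 2) ≤ (2 * (2 * L)) * (|s| / L ^ 2) :=
          mul_le_mul_of_nonneg_right (volume_real_ann_le (by linarith)) (by positivity)
      _ = _ := by field_simp; ring
  have hpt : ∀ p, |cut L (2 * L) (p + s) - cut L (2 * L) p| ≤ Z L p + Z (2 * L) p + V p := by
    intro p
    have z0 : ∀ R, 0 ≤ Z R p := fun R => Set.indicator_nonneg (fun _ _ => by positivity) p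
    have v0 : 0 ≤ V p := Set.indicator_nonneg (fun _ _ => by positivity) p
    have hps : |(|p + s| - |p|)| ≤ |s| := (abs_abs_sub_abs_le_abs_sub _ _).trans (by simp)
    obtain ⟨u, v⟩ := abs_le.mp hps
    have hedge : ∀ {R}, (|p| < R ∧ R ≤ |p + s|) ∨ (|p + s| < R ∧ R ≤ |p|) → L⁻¹ ≤ Z R p := by
      intro R hR
      refine le_of_eq (Set.indicator_of_mem (show p ∈ {p : ℝ | |(|p| - R)| ≤ |s|} from ?_) (fun _ => L⁻¹)).symm
      show |(|p| - R)| ≤ |s|
      rw [abs_le]
      rcases hR with ⟨a, b⟩ | ⟨a, b⟩ <;> constructor <;> linarith [abs_nonneg s]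
    by_cases h1 : p + s ∈ ann L (2 * L) <;> by_cases h2 : p ∈ ann L (2 * L)
    · simp only [cut, Set.indicator_of_mem h1, Set.indicator_of_mem h2]
      have hV : V p = |s| / L ^ 2 := Set.indicator_of_mem h2 _
      have a0 : 0 < |p + s| := hL.trans_le h1.1
      have b0 : 0 < |p| := hL.trans_le h2.1
      rw [inv_sub_inv (abs_pos.mp a0) (abs_pos.mp b0), abs_div, abs_mul, sub_add_cancel_left, abs_neg]
      have : |s| / (|p + s| * |p|) ≤ |s| / L ^ 2 := by
        rw [pow_two]; gcongr
        · exact h1.1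
        · exact h2.1
      linarith [z0 L, z0 (2 * L)]
    · simp only [cut, Set.indicator_of_mem h1, Set.indicator_of_notMem h2, sub_zero, abs_inv]
      have : |p + s|⁻¹ ≤ L⁻¹ := inv_anti₀ hL h1.1
      rcases not_and_or.mp h2 with hn | hn
      · linarith [hedge (R := L) (Or.inl ⟨not_le.mp hn, h1.1⟩), z0 (2 * L)]
      · linarith [hedge (R := 2 * L) (Or.inr ⟨h1.2, not_lt.mp hn⟩), z0 L]
    · simp only [cut, Set.indicator_of_notMem h1, Set.indicator_of_mem h2, zero_sub, abs_neg, abs_inv]
      have : |p|⁻¹ ≤ L⁻¹ := inv_anti₀ hL h2.1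
      rcases not_and_or.mp h1 with hn | hn
      · linarith [hedge (R := L) (Or.inr ⟨not_le.mp hn, h2.1⟩), z0 (2 * L)]
      · linarith [hedge (R := 2 * L) (Or.inl ⟨h2.2, not_lt.mp hn⟩), z0 L]
    · simp only [cut, Set.indicator_of_notMem h1, Set.indicator_of_notMem h2, sub_self, abs_zero]
      linarith [z0 L, z0 (2 * L)]
  have i0 : Integrable fun p => |cut L (2 * L) (p + s) - cut L (2 * L) p| :=
    (((integrable_cut hL).comp_add_right s).sub (integrable_cut hL)).abs
  refine (integral_mono i0 (((iZ L).add (iZ (2 * L))).add iV) hpt).trans ?_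
  simp only [Pi.add_apply]
  rw [integral_add (f := fun p => Z L p + Z (2 * L) p) ((iZ _).add (iZ _)) iV,
    integral_add (iZ _) (iZ _)]
  have := bZ L; have := bZ (2 * L)
  have : 12 * |s| / L = 4 * |s| / L + 4 * |s| / L + 4 * |s| / L := by ring
  linarith

lemma superpose {k : ℝ → ℝ} (hkm : Measurable k) (hki : Integrable k)
    {G : ℝ → ℝ × ℝ → ℝ} (hGm : Measurable (Function.uncurry G)) {B M : ℝ} (hB0 : 0 ≤ B)
    (hG : ∀ t, k t ≠ 0 → (∀ p, |G t p| ≤ B) ∧ Integrable (G t) ∧ ∫ p, |G t p| ≤ M) :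
    Nice volume (fun p => ∫ t, k t * G t p) ∧
    ∀ h, Nice volume h →
      Integrable (fun t => k t * ∫ p, G t p * h p) ∧
        ∫ p, (∫ t, k t * G t p) * h p = ∫ t, k t * ∫ p, G t p * h p := by
  have hm : Measurable fun z : ℝ × (ℝ × ℝ) => k z.1 * G z.1 z.2 :=
    (hkm.comp measurable_fst).mul hGm
  have hI : Integrable (fun z : ℝ × (ℝ × ℝ) => k z.1 * G z.1 z.2) (volume.prod volume) := by
    rw [integrable_prod_iff hm.aestronglyMeasurable]
    refine ⟨Eventually.of_forall fun t => ?_, ?_⟩
    · by_cases ht : k t = 0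
      · simp [ht]
      · exact (hG t ht).2.1.const_mul (k t)
    · refine (hki.abs.mul_const M).mono' ?_ (Eventually.of_forall fun t => ?_)
      · exact (hm.norm.stronglyMeasurable.integral_prod_right').aestronglyMeasurable
      · simp only [Real.norm_eq_abs, abs_mul]
        rw [integral_const_mul, abs_mul, abs_abs, abs_of_nonneg (integral_nonneg fun p => abs_nonneg _)]
        by_cases ht : k t = 0
        · simp [ht]
        · exact mul_le_mul_of_nonneg_left (hG t ht).2.2 (abs_nonneg _)
  have hmeas : Measurable fun p => ∫ t, k t * G t p :=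
    (hm.stronglyMeasurable.integral_prod_left').measurable
  refine ⟨⟨hmeas, hI.integral_prod_right, (∫ t, |k t|) * B,
    mul_nonneg (integral_nonneg fun t => abs_nonneg _) hB0, fun p => ?_⟩, fun h hh => ?_⟩
  · rw [← integral_mul_const]
    refine abs_integral_le_integral_abs.trans (integral_mono_of_nonneg
      (Eventually.of_forall fun t => abs_nonneg _) (hki.abs.mul_const _)
      (Eventually.of_forall fun t => ?_))
    by_cases ht : k t = 0
    · simp [ht]
    · simp only [abs_mul]; exact mul_le_mul_of_nonneg_left ((hG t ht).1 p) (abs_nonneg _)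
  · obtain ⟨D, hD0, hD⟩ := hh.bdd
    have hJ : Integrable (fun z : ℝ × (ℝ × ℝ) => k z.1 * G z.1 z.2 * h z.2) (volume.prod volume) :=
      hI.mul_bdd (c := D) (hh.meas.comp measurable_snd).aestronglyMeasurable
        (Eventually.of_forall fun z => by simpa using hD z.2)
    have e : ∀ t, ∫ p, k t * G t p * h p = k t * ∫ p, G t p * h p := fun t => by
      rw [← integral_const_mul]; congr 1; funext p; ring
    refine ⟨hJ.integral_prod_left.congr (Eventually.of_forall e), ?_⟩
    calc ∫ p, (∫ t, k t * G t p) * h p = ∫ p, ∫ t, k t * G t p * h p := by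
          congr 1; funext p; rw [integral_mul_const]
      _ = ∫ t, ∫ p, k t * G t p * h p :=
          (integral_integral_swap (f := fun t p => k t * G t p * h p) hJ).symm
      _ = _ := by congr 1; funext t; exact e t

lemma abs_integral_kernel_le {k Φ : ℝ → ℝ} {C : ℝ} (hki : Integrable k)
    (h : ∀ t, k t ≠ 0 → |Φ t| ≤ C) : |∫ t, k t * Φ t| ≤ (∫ t, |k t|) * C := by
  rw [← integral_mul_const]
  refine abs_integral_le_integral_abs.trans (integral_mono_of_nonneg
    (Eventually.of_forall fun t => abs_nonneg _) (hki.abs.mul_const _)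
    (Eventually.of_forall fun t => ?_))
  by_cases ht : k t = 0
  · simp [ht]
  · simp only [abs_mul]; exact mul_le_mul_of_nonneg_left (h t ht) (abs_nonneg _)

lemma abs_integral_mul_le_two {f g : ℝ × ℝ → ℝ} (hf : Nice volume f) (hg : Nice volume g) {A B : ℝ}
    (hA : ∫ p, f p ^ 2 ≤ A) (hB : ∫ p, g p ^ 2 ≤ B) :
    |∫ p, f p * g p| ≤ Real.sqrt A * Real.sqrt B :=
  (abs_integral_mul_le_sqrt hf.meas.aestronglyMeasurable hg.meas.aestronglyMeasurable
    hf.sq_integrable hg.sq_integrable).trans
    (mul_le_mul (Real.sqrt_le_sqrt hA) (Real.sqrt_le_sqrt hB) (Real.sqrt_nonneg _) (Real.sqrt_nonneg _))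

/-- The vertical maximal majorant. -/
def xi (g : ℝ × ℝ → ℝ) (q : ℝ × ℝ) : ℝ :=
  (maxOp kk (fun y => g (q.1, y)) q.2 + maxOp pp (fun y => |g (q.1, y)|) q.2).toReal

lemma measurable_maxOp_slice {ker : ℝ → ℝ → ℝ} (hker : Good ker) {g : ℝ × ℝ → ℝ} (hg : Measurable g) :
    Measurable fun q : ℝ × ℝ => maxOp ker (fun y => g (q.1, y)) q.2 := by
  refine Measurable.iSup fun n => Measurable.ennreal_ofReal ?_
  induction n with
  | zero => exact measurable_const
  | succ n ih =>
    refine ih.max (Measurable.abs ?_)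
    have : Measurable fun z : (ℝ × ℝ) × ℝ => ker (dy n) (z.1.2 - z.2) * g (z.1.1, z.2) := by
      have := hker.meas (dy n)
      fun_prop
    exact this.stronglyMeasurable.integral_prod_right'.measurable

lemma ae_nice_slice {g : ℝ × ℝ → ℝ} (hg : Nice volume g) :
    ∀ᵐ c : ℝ, Nice volume fun y => g (c, y) := by
  obtain ⟨B, hB0, hB⟩ := hg.bdd
  have hi : Integrable g (volume.prod volume) := hg.integrable
  filter_upwards [hi.prod_right_ae] with c hc
  exact ⟨hg.meas.comp measurable_prodMk_left, hc, B, hB0, fun y => hB _⟩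

lemma xi_spec {g : ℝ × ℝ → ℝ} (hg : Nice volume g) :
    Measurable (xi g) ∧ Integrable (fun q => xi g q ^ 2) ∧ ∫ q, xi g q ^ 2 ≤ 256 * ∫ q, g q ^ 2 ∧
    (∀ᵐ q, Nice volume (fun y => g (q.1, y)) ∧ Dom (fun y => g (q.1, y)) q.2 (xi g q)) := by
  set A := fun q : ℝ × ℝ => maxOp kk (fun y => g (q.1, y)) q.2 with hA
  set B := fun q : ℝ × ℝ => maxOp pp (fun y => |g (q.1, y)|) q.2 with hB
  have hAm : Measurable A := measurable_maxOp_slice good_kk hg.meas
  have hBm : Measurable B := measurable_maxOp_slice good_pp hg.meas.abs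
  have hsq : Integrable (fun q => g q ^ 2) (volume.prod volume) := hg.sq_integrable
  have htot : ∫⁻ q, (A q + B q) ^ 2 ≤ ENNReal.ofReal (256 * ∫ q, g q ^ 2) := by
    calc ∫⁻ q, (A q + B q) ^ 2 ≤ ∫⁻ q, 2 * (A q ^ 2 + B q ^ 2) := lintegral_mono fun q => by
          rcases eq_top_or_lt_top (A q) with h | h
          · simp [h]
          rcases eq_top_or_lt_top (B q) with h' | h'
          · simp [h']
          rw [← ENNReal.toReal_le_toReal (by finiteness) (by finiteness)]
          simp only [ENNReal.toReal_pow, ENNReal.toReal_mul, ENNReal.toReal_add h.ne h'.ne,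
            ENNReal.toReal_add (ENNReal.pow_ne_top h.ne) (ENNReal.pow_ne_top h'.ne), ENNReal.toReal_ofNat]
          nlinarith [sq_nonneg ((A q).toReal - (B q).toReal)]
      _ = 2 * ((∫⁻ q, A q ^ 2) + ∫⁻ q, B q ^ 2) := by
          rw [lintegral_const_mul' _ _ (by norm_num), lintegral_add_left (hAm.pow_const 2)]
      _ ≤ 2 * (ENNReal.ofReal (64 * ∫ q, g q ^ 2) + ENNReal.ofReal (64 * ∫ q, g q ^ 2)) := by
          have hkey : ∀ (ker : ℝ → ℝ → ℝ) (F : ℝ × ℝ → ℝ), Good ker → Measurable F →
              (∀ᵐ c : ℝ, Nice volume fun y => F (c, y)) → (∀ p, F p ^ 2 = g p ^ 2) →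
              ∫⁻ q : ℝ × ℝ, maxOp ker (fun y => F (q.1, y)) q.2 ^ 2 ≤
                ENNReal.ofReal (64 * ∫ q, g q ^ 2) := by
            intro ker F hker hFm hF hFg
            rw [Measure.volume_eq_prod,
              lintegral_prod _ ((measurable_maxOp_slice hker hFm).pow_const 2).aemeasurable,
              integral_prod _ hsq, ← integral_const_mul,
              ofReal_integral_eq_lintegral_ofReal (hsq.integral_prod_left.const_mul 64)
                (Eventually.of_forall fun c => mul_nonneg (by norm_num) (integral_nonneg fun y => sq_nonneg _))]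
            refine lintegral_mono_ae ?_
            filter_upwards [hF] with c hc
            have := lintegral_maxOp_sq hker hc
            simp only [hFg] at this
            exact this
          refine mul_le_mul_right (add_le_add (hkey kk g good_kk hg.meas (ae_nice_slice hg) fun _ => rfl)
            (hkey pp (fun p => |g p|) good_pp hg.meas.abs (ae_nice_slice hg.abs) fun p => sq_abs _)) 2
      _ = _ := by
          rw [← ENNReal.ofReal_add, show (2 : ℝ≥0∞) = ENNReal.ofReal 2 by norm_num,
            ← ENNReal.ofReal_mul two_pos.le]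
          · congr 1; ring
          all_goals exact mul_nonneg (by norm_num) (integral_nonneg fun q => sq_nonneg _)
  have hm : Measurable (xi g) := (hAm.add hBm).ennreal_toReal
  have hfin : ∀ᵐ q, (A q + B q) ^ 2 < ⊤ :=
    ae_lt_top ((hAm.add hBm).pow_const 2) (lt_of_le_of_lt htot ENNReal.ofReal_lt_top).ne
  have he : ∀ᵐ q, ENNReal.ofReal (xi g q ^ 2) = (A q + B q) ^ 2 := by
    filter_upwards [hfin] with q hq
    rw [show xi g q ^ 2 = ((A q + B q) ^ 2).toReal by rw [ENNReal.toReal_pow]; rfl,
      ENNReal.ofReal_toReal hq.ne]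
  have hint : Integrable (fun q => xi g q ^ 2) := by
    refine ⟨(hm.pow_const 2).aestronglyMeasurable, ?_⟩
    rw [hasFiniteIntegral_iff_ofReal (Eventually.of_forall fun q => sq_nonneg _), lintegral_congr_ae he]
    exact lt_of_le_of_lt htot ENNReal.ofReal_lt_top
  refine ⟨hm, hint, ?_, ?_⟩
  · have h0 : 0 ≤ 256 * ∫ q, g q ^ 2 := mul_nonneg (by norm_num) (integral_nonneg fun q => sq_nonneg _)
    rw [← ENNReal.ofReal_le_ofReal_iff h0,
      ofReal_integral_eq_lintegral_ofReal hint (Eventually.of_forall fun q => sq_nonneg _),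
      lintegral_congr_ae he]
    exact htot
  · have hs : ∀ᵐ q : ℝ × ℝ, Nice volume (fun y => g (q.1, y)) := by
      rw [Measure.volume_eq_prod]
      exact Measure.quasiMeasurePreserving_fst.ae (ae_nice_slice hg)
    filter_upwards [hfin, hs] with q hq hn
    have hAB : A q + B q ≠ ⊤ := fun h => by simp [h] at hq
    refine ⟨hn, fun z => ?_, fun z => ?_⟩ <;>
      have hz : dy (Equiv.intEquivNat z) = (2 : ℝ) ^ z := by simp [dy]
    · refine (ENNReal.ofReal_le_iff_le_toReal hAB).mp (le_trans ?_ le_self_add)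
      refine le_trans (ENNReal.ofReal_le_ofReal ?_) (le_iSup
        (fun n => ENNReal.ofReal (mx kk dy (fun y => g (q.1, y)) n q.2)) (Equiv.intEquivNat z + 1))
      rw [← hz]; exact le_mx (Nat.lt_succ_self _) q.2
    · refine (ENNReal.ofReal_le_iff_le_toReal hAB).mp (le_trans ?_ le_add_self)
      refine le_trans (ENNReal.ofReal_le_ofReal ?_) (le_iSup
        (fun n => ENNReal.ofReal (mx pp dy (fun y => |g (q.1, y)|) n q.2)) (Equiv.intEquivNat z + 1))
      rw [← hz]; exact (le_abs_self _).trans (le_mx (Nat.lt_succ_self _) q.2)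

/-- The pairing of two backward shears. -/
def pairQ (σ : ℝ × ℝ → ℝ) (Λ : ℝ) (g : ℝ × ℝ → ℝ) (t s : ℝ) : ℝ :=
  ∫ p, g (back σ Λ t p) * g (back σ Λ s p)

/-- The pairing after moving one shear. -/
def pairR (σ : ℝ × ℝ → ℝ) (Λ : ℝ) (g : ℝ × ℝ → ℝ) (p s : ℝ) : ℝ :=
  ∫ x, g x * g (back σ Λ s (shift σ (p + s) x))

section Main

variable {σ : ℝ × ℝ → ℝ} {Λ : ℝ} (h : Slope σ Λ)
include h

lemma Slope.cut_small {a b t : ℝ} (hb : b * Λ ≤ 1 / 4) (ht : cut a b t ≠ 0) :
    |t| * Λ ≤ 1 / 4 ∧ |t| < b := by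
  have : t ∈ ann a b := Set.mem_of_indicator_ne_zero ht
  exact ⟨le_trans (mul_le_mul_of_nonneg_right this.2.le h.pos.le) hb, this.2⟩

lemma Slope.opS_spec {g : ℝ × ℝ → ℝ} (hg : Nice volume g) {a b : ℝ} (ha : 0 < a)
    (hb : b * Λ ≤ 1 / 4) :
    Nice volume (opS σ Λ (cut a b) g) ∧ ∀ u, Nice volume u →
      Integrable (fun t => cut a b t * ∫ p, g (back σ Λ t p) * u p) ∧
      ∫ p, opS σ Λ (cut a b) g p * u p = ∫ t, cut a b t * ∫ p, g (back σ Λ t p) * u p := by
  obtain ⟨B, hB0, hB⟩ := hg.bdd
  exact superpose (measurable_cut a b) (integrable_cut ha) (G := fun t p => g (back σ Λ t p))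
    (hg.meas.comp h.measurable_back) hB0 fun t ht =>
    ⟨fun p => hB _, (h.nice_back (h.cut_small hb ht).1 hg).1.integrable,
      (h.nice_back (h.cut_small hb ht).1 hg).2.1⟩

lemma Slope.opT_spec {f : ℝ × ℝ → ℝ} (hf : Nice volume f) {a b : ℝ} (ha : 0 < a)
    (hb : b * Λ ≤ 1 / 4) :
    Nice volume (opT σ (cut a b) f) ∧ ∀ u, Nice volume u →
      Integrable (fun t => cut a b t * ∫ p, f (shift σ t p) * u p) ∧
      ∫ p, opT σ (cut a b) f p * u p = ∫ t, cut a b t * ∫ p, f (shift σ t p) * u p := by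
  obtain ⟨B, hB0, hB⟩ := hf.bdd
  exact superpose (measurable_cut a b) (integrable_cut ha) (G := fun t p => f (shift σ t p))
    (hf.meas.comp h.measurable_shift) hB0 fun t ht =>
    ⟨fun p => hB _, (h.nice_shift (h.cut_small hb ht).1 hf).1.integrable,
      (h.nice_shift (h.cut_small hb ht).1 hf).2.1⟩

variable {g : ℝ × ℝ → ℝ} (hg : Nice volume g)
include hg

lemma Slope.opS_dyadic_sq {L : ℝ} (hL : 0 < L) (hb : 2 * L * Λ ≤ 1 / 4) :
    ∫ p, opS σ Λ (cut L (2 * L)) g p ^ 2 ≤ 32 * ∫ p, g p ^ 2 := by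
  obtain ⟨hS, hu⟩ := h.opS_spec hg hL hb
  set X := ∫ p, g p ^ 2
  have hX : 0 ≤ X := integral_nonneg fun p => sq_nonneg _
  set A := ∫ p, opS σ Λ (cut L (2 * L)) g p ^ 2
  have hA : 0 ≤ A := integral_nonneg fun p => sq_nonneg _
  have h1 : A ≤ 4 * (Real.sqrt (2 * X) * Real.sqrt A) := by
    have e : A = ∫ p, opS σ Λ (cut L (2 * L)) g p * opS σ Λ (cut L (2 * L)) g p := by
      simp only [A, sq]
    rw [(hu _ hS).2] at e
    calc A = _ := e
      _ ≤ _ := le_abs_self _
      _ ≤ (∫ t, |cut L (2 * L) t|) * (Real.sqrt (2 * X) * Real.sqrt A) :=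
          abs_integral_kernel_le (integrable_cut hL) fun t ht => abs_integral_mul_le_two
            (h.nice_back (h.cut_small hb ht).1 hg).1 hS (h.nice_back (h.cut_small hb ht).1 hg).2.2 le_rfl
      _ ≤ _ := mul_le_mul_of_nonneg_right (integral_abs_cut_double hL) (by positivity)
  rw [← Real.sqrt_mul (by positivity)] at h1
  rcases hA.eq_or_lt with h0 | h0
  · linarith
  · have h2 : A / 4 ≤ Real.sqrt (2 * X * A) := by linarith
    rw [Real.le_sqrt (by positivity) (by positivity)] at h2
    nlinarith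

lemma Slope.measurable_pairR : Measurable (Function.uncurry (pairR σ Λ g)) := by
  have hb := h.measurable_back
  have hs := h.measurable_shift
  have : Measurable fun z : (ℝ × ℝ) × (ℝ × ℝ) =>
      g z.2 * g (back σ Λ z.1.2 (shift σ (z.1.1 + z.1.2) z.2)) :=
    (hg.meas.comp measurable_snd).mul (hg.meas.comp (hb.comp ((measurable_snd.comp measurable_fst).prodMk
      (hs.comp (((measurable_fst.comp measurable_fst).add (measurable_snd.comp measurable_fst)).prodMk
        measurable_snd)))))
  exact this.stronglyMeasurable.integral_prod_right'.measurable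

lemma Slope.abs_pairR {p s : ℝ} (hps : |p + s| * Λ ≤ 1 / 4) (hs : |s| * Λ ≤ 1 / 4) :
    |pairR σ Λ g p s| ≤ 2 * ∫ x, g x ^ 2 := by
  set X := ∫ x, g x ^ 2
  have hX : 0 ≤ X := integral_nonneg fun p => sq_nonneg _
  obtain ⟨n1, -, s1⟩ := h.nice_back hs hg
  obtain ⟨n2, -, s2⟩ := h.nice_shift hps n1
  have := abs_integral_mul_le_two hg n2 (show ∫ x, g x ^ 2 ≤ X from le_rfl)
    (s2.trans (by linarith : 2 * (∫ x, g (back σ Λ s x) ^ 2) ≤ 4 * X))
  refine this.trans (le_of_eq ?_)
  rw [← Real.sqrt_mul hX, show X * (4 * X) = (2 * X) ^ 2 by ring, Real.sqrt_sq (by positivity)]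

/-- The frozen cross term is controlled by the column estimate. -/
lemma Slope.cross_main {ε : ℝ} (hε : 0 < ε) (n : ℕ) (hn : ε * 2 ^ n * Λ ≤ 1 / 1024) {p : ℝ}
    (hp0 : |p| ≤ 2 * (ε * 2 ^ n)) :
    |∫ s, cut ε (ε * 2 ^ n) s * pairR σ Λ g p s| ≤ 700 * (23 * ∫ x, g x ^ 2) := by
  set L := ε * 2 ^ n with hLdef
  set X := ∫ p, g p ^ 2 with hXdef
  have hX : 0 ≤ X := integral_nonneg fun p => sq_nonneg _
  have hL : 0 < L := by positivity
  have hΛ := h.pos
  have small : ∀ {t : ℝ}, |t| ≤ 4 * L → |t| * Λ ≤ 1 / 4 := fun {t} ht => by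
    nlinarith [mul_le_mul_of_nonneg_right ht hΛ.le]
  set P := cut ε L with hPdef
  have Psmall : ∀ {t}, P t ≠ 0 → |t| < L := fun {t} ht =>
    (show t ∈ ann ε L from Set.mem_of_indicator_ne_zero ht).2
  have hPi : Integrable P := integrable_cut hε
  have hnice : ∀ p, |p| ≤ 2 * L → Nice volume (fun x => ∫ s, P s * g (back σ Λ s (shift σ (p + s) x))) ∧
      ∫ s, P s * pairR σ Λ g p s = ∫ x, (∫ s, P s * g (back σ Λ s (shift σ (p + s) x))) * g x := by
    intro p hp
    obtain ⟨B, hB0, hB⟩ := hg.bdd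
    have hG : Measurable (Function.uncurry fun s x => g (back σ Λ s (shift σ (p + s) x))) :=
      hg.meas.comp (h.measurable_back.comp (measurable_fst.prodMk
        (h.measurable_shift.comp ((measurable_fst.const_add p).prodMk measurable_snd))))
    obtain ⟨a, b⟩ := superpose (measurable_cut ε L) hPi hG hB0 (M := 4 * ∫ x, |g x|) fun s hs => by
      obtain ⟨n1, l1, -⟩ := h.nice_back (small (show |s| ≤ 4 * L by linarith [Psmall hs])) hg
      obtain ⟨n2, l2, -⟩ := h.nice_shift (small (show |p + s| ≤ 4 * L by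
        linarith [abs_add_le p s, Psmall hs])) n1
      exact ⟨fun x => hB _, n2.integrable, by linarith⟩
    refine ⟨a, ?_⟩
    rw [(b g hg).2]
    congr 1; funext s; congr 1
    simp only [pairR]; congr 1; funext x; ring
  obtain ⟨hxm, hxi, hxb, hdom⟩ := xi_spec hg
  have hJ : ∀ p, |p| ≤ 2 * L → |∫ s, P s * pairR σ Λ g p s| ≤ 700 * (23 * X) := by
    intro p hp
    obtain ⟨a, b⟩ := hnice p hp
    rw [b]
    have hps : |p| * Λ ≤ 1 / 4 := small (by linarith)
    have hqmp : ∀ᵐ x, Nice volume (fun y => g ((shift σ p x).1, y)) ∧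
        Dom (fun y => g ((shift σ p x).1, y)) (shift σ p x).2 (xi g (shift σ p x)) := by
      have hq : Measure.QuasiMeasurePreserving (shift σ p) volume volume := by
        refine ⟨h.measurable_shift' p, Measure.AbsolutelyContinuous.mk fun N hN h0 => ?_⟩
        rw [Measure.map_apply (h.measurable_shift' p) hN]
        have hind := h.lintegral_shift_le hps (F := N.indicator 1) (measurable_const.indicator hN)
        have e : ∀ x, N.indicator (1 : ℝ × ℝ → ℝ≥0∞) (shift σ p x) = (shift σ p ⁻¹' N).indicator 1 x :=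
          fun x => by by_cases hx : shift σ p x ∈ N <;> simp [hx]
        simp only [e] at hind
        rw [lintegral_indicator_one (h.measurable_shift' p hN), lintegral_indicator_one hN, h0,
          mul_zero] at hind
        exact nonpos_iff_eq_zero.mp hind
      exact hq.ae hdom
    have hpt : ∀ᵐ x, |(∫ s, P s * g (back σ Λ s (shift σ (p + s) x)))| ≤
        700 * xi g (shift σ p x) := by
      filter_upwards [hqmp] with x hx
      obtain ⟨hG, hD⟩ := hx
      obtain ⟨r, u⟩ := x
      set c := r + p with hc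
      set m := u + p * σ (r, u) with hm
      set hs : ℝ → ℝ := fun s => solv σ Λ (c, m + s * σ (r, u), s) - m with hhs
      have hbig : |∫ s, (ann ε (ε * 2 ^ n)).indicator (fun s => g (c, m + hs s) / s) s| ≤
          700 * xi g (shift σ p (r, u)) := by
        refine curve_hilbert (G := fun y => g (c, y)) (τ := fun y => σ (r, u) - σ (c, m + y)) hG hD hΛ
          (fun y y' => ?_) ?_ (fun s hsS => ?_) hε n ?_
        · rw [show σ (r, u) - σ (c, m + y) - (σ (r, u) - σ (c, m + y')) =
            σ (c, m + y') - σ (c, m + y) by ring, abs_sub_comm (y)]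
          simpa using h.lip c (m + y') (m + y)
        · exact (h.measurable_solv.comp (by fun_prop :
            Measurable fun s : ℝ => (c, m + s * σ (r, u), s))).sub_const m
        · have hsΛ : |s| * Λ ≤ 1 / 2 := by
            have := mul_le_mul_of_nonneg_right hsS hΛ.le
            rw [show (16 * Λ)⁻¹ * Λ = 1 / 16 by field_simp] at this
            linarith
          have := h.solv_eq (c := c) (b := m + s * σ (r, u)) hsΛ
          simp only [hhs, add_sub_cancel]
          linarith
        · rw [le_inv_comm₀ (by positivity) (by positivity), ← one_div, le_div_iff₀ (by positivity)]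
          rw [← hLdef]; nlinarith
      refine le_of_eq_of_le ?_ hbig
      congr 2; funext s
      simp only [hPdef, cut, ← hLdef]
      by_cases hsm : s ∈ ann ε L
      · simp only [Set.indicator_of_mem hsm]
        simp only [back, shift, hhs, hc, hm]
        rw [show r + (p + s) - s = r + p by ring, show u + (p + s) * σ (r, u) =
          u + p * σ (r, u) + s * σ (r, u) by ring, add_sub_cancel]
        ring
      · simp [hsm]
    obtain ⟨-, -, hsq⟩ : True ∧ True ∧ ∫ x, xi g (shift σ p x) ^ 2 ≤ 512 * X := by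
      refine ⟨trivial, trivial, ?_⟩
      have := (comp_of_lintegral_le (h.measurable_shift' p) (fun F hF => h.lintegral_shift_le hps hF)
        (hxm.pow_const 2) hxi).2
      simp only [abs_pow, sq_abs] at this
      linarith
    have hxsi : Integrable fun x => xi g (shift σ p x) ^ 2 :=
      (comp_of_lintegral_le (h.measurable_shift' p) (fun F hF => h.lintegral_shift_le hps hF)
        (hxm.pow_const 2) hxi).1
    have hxsm : Measurable fun x => xi g (shift σ p x) := hxm.comp (h.measurable_shift' p)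
    have hprod : Integrable fun x => |g x| * xi g (shift σ p x) := by
      refine (hg.sq_integrable.add hxsi).mono' (hg.meas.abs.mul hxsm).aestronglyMeasurable
        (Eventually.of_forall fun x => ?_)
      rw [Real.norm_eq_abs, abs_mul, abs_abs]
      simp only [Pi.add_apply]
      nlinarith [sq_nonneg (|g x| - |xi g (shift σ p x)|), sq_abs (g x),
        sq_abs (xi g (shift σ p x))]
    have hcs := abs_integral_mul_le_sqrt hg.meas.abs.aestronglyMeasurable hxsm.aestronglyMeasurable
      (by simpa only [sq_abs] using hg.sq_integrable) hxsi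
    simp only [sq_abs] at hcs
    calc |∫ x, (∫ s, P s * g (back σ Λ s (shift σ (p + s) x))) * g x|
        ≤ ∫ x, |(∫ s, P s * g (back σ Λ s (shift σ (p + s) x))) * g x| := abs_integral_le_integral_abs
      _ ≤ ∫ x, 700 * (|g x| * xi g (shift σ p x)) := by
          refine integral_mono_of_nonneg (Eventually.of_forall fun x => abs_nonneg _)
            (hprod.const_mul 700) ?_
          filter_upwards [hpt] with x hx
          rw [abs_mul]
          calc _ ≤ 700 * xi g (shift σ p x) * |g x| := mul_le_mul_of_nonneg_right hx (abs_nonneg _)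
            _ = _ := by ring
      _ ≤ 700 * (Real.sqrt X * Real.sqrt (512 * X)) := by
          rw [integral_const_mul]
          refine mul_le_mul_of_nonneg_left ((le_abs_self _).trans (hcs.trans ?_)) (by norm_num)
          gcongr
      _ ≤ 700 * (23 * X) := by
          refine mul_le_mul_of_nonneg_left ?_ (by norm_num)
          rw [← Real.sqrt_mul hX]
          calc Real.sqrt (X * (512 * X)) ≤ Real.sqrt ((23 * X) ^ 2) := Real.sqrt_le_sqrt (by nlinarith)
            _ = 23 * X := Real.sqrt_sq (by positivity)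
  exact hJ p hp0

/-- Freezing the coarse kernel costs a constant. -/
lemma Slope.cross_freeze {ε : ℝ} (hε : 0 < ε) (n : ℕ) (hn : ε * 2 ^ n * Λ ≤ 1 / 1024)
    (hA : Integrable fun s => cut ε (ε * 2 ^ n) s *
      ∫ p, cut (ε * 2 ^ n) (2 * (ε * 2 ^ n)) (p + s) * pairR σ Λ g p s)
    (hB : Integrable fun s => cut ε (ε * 2 ^ n) s *
      ∫ p, cut (ε * 2 ^ n) (2 * (ε * 2 ^ n)) p * pairR σ Λ g p s) :
    |(∫ s, cut ε (ε * 2 ^ n) s * ∫ p, cut (ε * 2 ^ n) (2 * (ε * 2 ^ n)) (p + s) * pairR σ Λ g p s) -
        ∫ s, cut ε (ε * 2 ^ n) s * ∫ p, cut (ε * 2 ^ n) (2 * (ε * 2 ^ n)) p * pairR σ Λ g p s| ≤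
      48 * ∫ x, g x ^ 2 := by
  set L := ε * 2 ^ n with hLdef
  set X := ∫ p, g p ^ 2 with hXdef
  have hX : 0 ≤ X := integral_nonneg fun p => sq_nonneg _
  have hL : 0 < L := by positivity
  have hΛ := h.pos
  have small : ∀ {t : ℝ}, |t| ≤ 4 * L → |t| * Λ ≤ 1 / 4 := fun {t} ht => by
    nlinarith [mul_le_mul_of_nonneg_right ht hΛ.le]
  set q := cut L (2 * L) with hqdef
  set P := cut ε L with hPdef
  have qsmall : ∀ {t}, q t ≠ 0 → |t| < 2 * L := fun {t} ht =>
    (show t ∈ ann L (2 * L) from Set.mem_of_indicator_ne_zero ht).2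
  have Psmall : ∀ {t}, P t ≠ 0 → |t| < L := fun {t} ht =>
    (show t ∈ ann ε L from Set.mem_of_indicator_ne_zero ht).2
  have hqi : Integrable q := integrable_cut hL
  have hPi : Integrable P := integrable_cut hε
  set R := pairR σ Λ g with hRdef
  have hRm : Measurable (Function.uncurry R) := h.measurable_pairR hg
  have hRb : ∀ p s, |p + s| ≤ 4 * L → |s| ≤ 4 * L → |R p s| ≤ 2 * X := fun p s a b =>
    h.abs_pairR hg (small a) (small b)
  rw [← integral_sub hA hB]
  have hW : Integrable (fun s => |P s| * |s|) := by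
    refine (hPi.abs.mul_const L).mono'
      (((measurable_cut _ _).abs.mul measurable_id.abs).aestronglyMeasurable)
      (Eventually.of_forall fun t => ?_)
    rw [Real.norm_eq_abs, abs_mul, abs_abs, abs_abs]
    by_cases ht : P t = 0
    · simp [ht]
    · exact mul_le_mul_of_nonneg_left (Psmall ht).le (abs_nonneg _)
  refine abs_integral_le_integral_abs.trans
    ((integral_mono (hA.sub hB).abs (hW.mul_const (24 * X / L)) fun s => ?_).trans ?_)
  · simp only [Pi.sub_apply]
    rw [← mul_sub, abs_mul]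
    by_cases hs : P s = 0
    · simp [hs]
    have hsL := Psmall hs
    have sec : Measurable fun p => R p s := hRm.comp (measurable_id.prodMk measurable_const)
    have ib : ∀ p, (q (p + s) ≠ 0 ∨ q p ≠ 0) → |R p s| ≤ 2 * X := by
      intro p hp
      refine hRb p s ?_ (by linarith)
      rcases hp with hp | hp
      · linarith [qsmall hp]
      · linarith [abs_add_le p s, qsmall hp]
    have i1 : Integrable fun p => q (p + s) * R p s := by
      refine ((hqi.comp_add_right s).abs.mul_const (2 * X)).mono'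
        ((((measurable_cut _ _).comp (measurable_add_const s))).mul sec).aestronglyMeasurable
        (Eventually.of_forall fun p => ?_)
      rw [Real.norm_eq_abs, abs_mul]
      by_cases hp : q (p + s) = 0
      · simp [hp]
      · exact mul_le_mul_of_nonneg_left (ib p (Or.inl hp)) (abs_nonneg _)
    have i2 : Integrable fun p => q p * R p s := by
      refine (hqi.abs.mul_const (2 * X)).mono'
        ((measurable_cut _ _).mul sec).aestronglyMeasurable (Eventually.of_forall fun p => ?_)
      rw [Real.norm_eq_abs, abs_mul]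
      by_cases hp : q p = 0
      · simp [hp]
      · exact mul_le_mul_of_nonneg_left (ib p (Or.inr hp)) (abs_nonneg _)
    have hd : |(∫ p, q (p + s) * R p s) - ∫ p, q p * R p s| ≤ 12 * |s| / L * (2 * X) := by
      rw [← integral_sub i1 i2]
      simp only [← sub_mul]
      refine (abs_integral_kernel_le ((hqi.comp_add_right s).sub hqi) fun p hp => ib p ?_).trans
        (mul_le_mul_of_nonneg_right (cut_modulus hL s) (by positivity))
      by_contra hcon
      simp only [not_or, not_not] at hcon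
      exact hp (by simp [Pi.sub_apply, hcon.1, hcon.2])
    calc |P s| * _ ≤ |P s| * (12 * |s| / L * (2 * X)) := mul_le_mul_of_nonneg_left hd (abs_nonneg _)
      _ = _ := by ring
  · rw [integral_mul_const]
    calc (∫ s, |P s| * |s|) * (24 * X / L) ≤ 2 * L * (24 * X / L) :=
          mul_le_mul_of_nonneg_right (integral_abs_mul_cut hL.le) (by positivity)
      _ = 48 * X := by field_simp; ring

/-- The cross term between one scale and all finer scales. -/
lemma Slope.cross {ε : ℝ} (hε : 0 < ε) (n : ℕ) (hn : ε * 2 ^ n * Λ ≤ 1 / 1024) :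
    |∫ p, opS σ Λ (cut (ε * 2 ^ n) (2 * (ε * 2 ^ n))) g p * opS σ Λ (cut ε (ε * 2 ^ n)) g p| ≤
      (64 * (Λ * (ε * 2 ^ n)) * n + 65000) * ∫ p, g p ^ 2 := by
  set L := ε * 2 ^ n with hLdef
  set X := ∫ p, g p ^ 2 with hXdef
  have hX : 0 ≤ X := integral_nonneg fun p => sq_nonneg _
  have hL : 0 < L := by positivity
  have hΛ := h.pos
  set q := cut L (2 * L) with hqdef
  set P := cut ε L with hPdef
  obtain ⟨hS1, hu1⟩ := h.opS_spec hg hL (b := 2 * L) (by linarith)
  obtain ⟨hS2, hu2⟩ := h.opS_spec hg hε (b := L) (by linarith)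
  have small : ∀ {t : ℝ}, |t| ≤ 4 * L → |t| * Λ ≤ 1 / 4 := fun {t} ht => by
    nlinarith [mul_le_mul_of_nonneg_right ht hΛ.le]
  have qsmall : ∀ {t}, q t ≠ 0 → |t| < 2 * L := fun {t} ht =>
    (show t ∈ ann L (2 * L) from Set.mem_of_indicator_ne_zero ht).2
  have Psmall : ∀ {t}, P t ≠ 0 → |t| < L := fun {t} ht =>
    (show t ∈ ann ε L from Set.mem_of_indicator_ne_zero ht).2
  have hqi : Integrable q := integrable_cut hL
  have hPi : Integrable P := integrable_cut hε
  have sqrt2 : Real.sqrt (2 * X) * Real.sqrt (2 * X) = 2 * X := Real.mul_self_sqrt (by positivity)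
  set Q : ℝ → ℝ → ℝ := pairQ σ Λ g with hQdef
  set R : ℝ → ℝ → ℝ := pairR σ Λ g with hRdef
  have hQm : Measurable (Function.uncurry Q) := by
    have hb := h.measurable_back
    have : Measurable fun z : (ℝ × ℝ) × (ℝ × ℝ) =>
        g (back σ Λ z.1.1 z.2) * g (back σ Λ z.1.2 z.2) :=
      (hg.meas.comp (hb.comp ((measurable_fst.comp measurable_fst).prodMk measurable_snd))).mul
        (hg.meas.comp (hb.comp ((measurable_snd.comp measurable_fst).prodMk measurable_snd)))
    exact this.stronglyMeasurable.integral_prod_right'.measurable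
  have hRm : Measurable (Function.uncurry R) := h.measurable_pairR hg
  have hRb : ∀ p s, |p + s| ≤ 4 * L → |s| ≤ 4 * L → |R p s| ≤ 2 * X := fun p s a b =>
    h.abs_pairR hg (small a) (small b)
  -- first, move one shear onto the other factor
  have hstep1 : ∀ t s, q t ≠ 0 → P s ≠ 0 → |Q t s - R (t - s) s| ≤ |t| * Λ * (2 * X) := by
    intro t s ht hs
    have hts := small (show |t| ≤ 4 * L by linarith [qsmall ht])
    obtain ⟨n1, -, s1⟩ := h.nice_back (small (show |s| ≤ 4 * L by linarith [Psmall hs])) hg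
    have htr := h.transfer hts n1 hg
    have eR : R (t - s) s = ∫ x, g (back σ Λ s (shift σ t x)) * g x := by
      simp only [hRdef, pairR, sub_add_cancel]; congr 1; funext x; ring
    have eQ : Q t s = ∫ x, g (back σ Λ s x) * g (back σ Λ t x) := by
      simp only [hQdef, pairQ]; congr 1; funext x; ring
    rw [eR, eQ, abs_sub_comm]
    refine htr.trans (mul_le_mul_of_nonneg_left ?_ (mul_nonneg (abs_nonneg t) hΛ.le))
    obtain ⟨n2, -, s2⟩ := h.nice_shift hts n1
    have := abs_integral_mul_le_two n2.abs hg.abs (A := 4 * X) (B := X)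
      (by simp only [sq_abs]; linarith) (by simp only [sq_abs]; rfl)
    refine (le_abs_self _).trans (this.trans (le_of_eq ?_))
    rw [← Real.sqrt_mul (by positivity), show 4 * X * X = (2 * X) ^ 2 by ring,
      Real.sqrt_sq (by positivity)]
  have hqk := integral_abs_cut_double hL
  have hPk := integral_abs_cut_pow hε n
  have hexp : ∫ p, opS σ Λ q g p * opS σ Λ P g p = ∫ t, q t * ∫ s, P s * Q t s := by
    rw [(hu1 _ hS2).2]
    congr 1; funext t
    by_cases ht : q t = 0
    · rw [show cut L (2 * L) t = 0 from ht, ht, zero_mul, zero_mul]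
    congr 1
    obtain ⟨n1, -, -⟩ := h.nice_back (small (show |t| ≤ 4 * L by linarith [qsmall ht])) hg
    calc ∫ p, g (back σ Λ t p) * opS σ Λ P g p = ∫ p, opS σ Λ P g p * g (back σ Λ t p) := by
          congr 1; funext p; ring
      _ = ∫ s, P s * ∫ p, g (back σ Λ s p) * g (back σ Λ t p) := (hu2 _ n1).2
      _ = _ := by
          congr 1; funext s; congr 1
          simp only [hQdef, pairQ]; congr 1; funext p; ring
  have hbd2 : ∀ (F : ℝ → ℝ → ℝ), Measurable (Function.uncurry F) →
      (∀ t s, q t ≠ 0 → P s ≠ 0 → |F t s| ≤ 4 * X) →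
      Integrable (fun z : ℝ × ℝ => q z.1 * (P z.2 * F z.1 z.2)) (volume.prod volume) := by
    intro F hFm hF
    refine ((hqi.abs.mul_prod hPi.abs).mul_const (4 * X)).mono' ?_ (Eventually.of_forall fun z => ?_)
    · exact (((measurable_cut _ _).comp measurable_fst).mul
        (((measurable_cut _ _).comp measurable_snd).mul hFm)).aestronglyMeasurable
    · rw [Real.norm_eq_abs, abs_mul, abs_mul, mul_assoc]
      by_cases ht : q z.1 = 0
      · simp [ht]
      refine mul_le_mul_of_nonneg_left ?_ (abs_nonneg _)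
      by_cases hs : P z.2 = 0
      · simp [hs]
      exact mul_le_mul_of_nonneg_left (hF _ _ ht hs) (abs_nonneg _)
  have hQi : Integrable (fun z : ℝ × ℝ => q z.1 * (P z.2 * Q z.1 z.2)) (volume.prod volume) :=
    hbd2 Q hQm fun t s ht hs => by
      obtain ⟨n1, -, s1⟩ := h.nice_back (small (show |t| ≤ 4 * L by linarith [qsmall ht])) hg
      obtain ⟨n2, -, s2⟩ := h.nice_back (small (show |s| ≤ 4 * L by linarith [Psmall hs])) hg
      refine (abs_integral_mul_le_two n1 n2 s1 s2).trans ?_
      rw [sqrt2]; linarith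
  set R' : ℝ → ℝ → ℝ := fun t s => R (t - s) s with hR'
  have hR'm : Measurable (Function.uncurry R') :=
    hRm.comp ((measurable_fst.sub measurable_snd).prodMk measurable_snd)
  have hR'b : ∀ t s, q t ≠ 0 → P s ≠ 0 → |R (t - s) s| ≤ 2 * X := fun t s ht hs =>
    hRb _ _ (by rw [sub_add_cancel]; linarith [qsmall ht]) (by linarith [Psmall hs])
  have hRi : Integrable (fun z : ℝ × ℝ => q z.1 * (P z.2 * R' z.1 z.2)) (volume.prod volume) :=
    hbd2 R' hR'm fun t s ht hs => (hR'b t s ht hs).trans (by linarith)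
  have e1 : |(∫ t, q t * ∫ s, P s * Q t s) - ∫ t, q t * ∫ s, P s * R' t s| ≤
      64 * (Λ * L) * n * X := by
    simp only [← integral_const_mul]
    rw [← integral_prod (f := fun z : ℝ × ℝ => q z.1 * (P z.2 * Q z.1 z.2)) hQi,
      ← integral_prod (f := fun z : ℝ × ℝ => q z.1 * (P z.2 * R' z.1 z.2)) hRi,
      ← integral_sub hQi hRi]
    have hW : Integrable (fun t => |q t| * |t|) := by
      refine (hqi.abs.mul_const (2 * L)).mono'
        (((measurable_cut _ _).abs.mul measurable_id.abs).aestronglyMeasurable)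
        (Eventually.of_forall fun t => ?_)
      rw [Real.norm_eq_abs, abs_mul, abs_abs, abs_abs]
      by_cases ht : q t = 0
      · simp [ht]
      · exact mul_le_mul_of_nonneg_left (qsmall ht).le (abs_nonneg _)
    refine abs_integral_le_integral_abs.trans ?_
    refine (integral_mono (hQi.sub hRi).abs ((hW.mul_prod hPi.abs).mul_const (Λ * (2 * X))) fun z => ?_).trans ?_
    · simp only [Pi.sub_apply]
      rw [← mul_sub, ← mul_sub, abs_mul, abs_mul]
      by_cases ht : q z.1 = 0
      · simp [ht]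
      by_cases hs : P z.2 = 0
      · simp [hs]
      calc |q z.1| * (|P z.2| * |Q z.1 z.2 - R' z.1 z.2|)
          ≤ |q z.1| * (|P z.2| * (|z.1| * Λ * (2 * X))) := by gcongr; exact hstep1 _ _ ht hs
        _ = _ := by ring
    · rw [integral_mul_const, integral_prod_mul (fun t => |q t| * |t|) (fun s => |P s|)]
      have a1 : ∫ t, |q t| * |t| ≤ 2 * (2 * L) := integral_abs_mul_cut (by linarith)
      have a0 : (0 : ℝ) ≤ ∫ s, |P s| := integral_nonneg fun _ => abs_nonneg _
      calc (∫ t, |q t| * |t|) * (∫ s, |P s|) * (Λ * (2 * X))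
          ≤ 2 * (2 * L) * (4 * n) * (Λ * (2 * X)) := by gcongr
        _ ≤ _ := by nlinarith [mul_nonneg (mul_nonneg (mul_nonneg hΛ.le hL.le) (Nat.cast_nonneg (α := ℝ) n)) hX]
  -- then freeze the kernel of the coarse scale
  have hmain : ∫ t, q t * ∫ s, P s * R' t s = ∫ s, P s * ∫ p, q (p + s) * R p s := by
    simp only [← integral_const_mul]
    rw [integral_integral_swap (f := fun t s => q t * (P s * R' t s)) hRi]
    congr 1; funext s
    rw [← integral_add_right_eq_self (fun t => q t * (P s * R' t s)) s]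
    congr 1; funext p
    simp only [hR', add_sub_cancel_right]; ring
  have hRi2 : Integrable (fun z : ℝ × ℝ => P z.1 * (q z.2 * R z.2 z.1)) (volume.prod volume) := by
    refine ((hPi.abs.mul_prod hqi.abs).mul_const (4 * X)).mono' ?_ (Eventually.of_forall fun z => ?_)
    · exact (((measurable_cut _ _).comp measurable_fst).mul (((measurable_cut _ _).comp measurable_snd).mul
        (hRm.comp (measurable_snd.prodMk measurable_fst)))).aestronglyMeasurable
    · rw [Real.norm_eq_abs, abs_mul, abs_mul]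
      by_cases hs : P z.1 = 0
      · simp [hs]
      by_cases ht : q z.2 = 0
      · simp [ht]
      have := hRb z.2 z.1 (by linarith [abs_add_le z.2 z.1, qsmall ht, Psmall hs])
        (by linarith [Psmall hs])
      calc |P z.1| * (|q z.2| * |R z.2 z.1|) ≤ |P z.1| * (|q z.2| * (4 * X)) := by
            gcongr; linarith
        _ = _ := by ring
  have e3 : |∫ s, P s * ∫ p, q p * R p s| ≤ 4 * (700 * (23 * X)) := by
    simp only [← integral_const_mul]
    rw [integral_integral_swap (f := fun s p => P s * (q p * R p s)) hRi2]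
    have : ∀ p, ∫ s, P s * (q p * R p s) = q p * ∫ s, P s * R p s := fun p => by
      rw [← integral_const_mul]; congr 1; funext s; ring
    simp only [this]
    refine (abs_integral_kernel_le hqi fun p hp => h.cross_main hg hε n hn (qsmall hp).le).trans ?_
    exact mul_le_mul_of_nonneg_right hqk (by positivity)
  have e2 : |(∫ s, P s * ∫ p, q (p + s) * R p s) - ∫ s, P s * ∫ p, q p * R p s| ≤ 48 * X := by
    have hA : Integrable (fun s => P s * ∫ p, q (p + s) * R p s) := by
      refine hRi.integral_prod_right.congr (Eventually.of_forall fun s => ?_)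
      simp only
      rw [← integral_const_mul, ← integral_add_right_eq_self (fun t => q t * (P s * R' t s)) s]
      congr 1; funext p
      simp only [hR', add_sub_cancel_right]; ring
    have hB : Integrable (fun s => P s * ∫ p, q p * R p s) := by
      refine hRi2.integral_prod_left.congr (Eventually.of_forall fun s => ?_)
      simp only [integral_const_mul]
    exact h.cross_freeze hg hε n hn hA hB
  rw [hexp]
  rw [hmain] at e1
  rw [abs_le] at e1 e2 e3 ⊢
  constructor <;> nlinarith [e1.1, e1.2, e2.1, e2.2, e3.1, e3.2]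

lemma Slope.opS_sq {ε : ℝ} (hε : 0 < ε) (n : ℕ) (hn : ε * 2 ^ n * Λ ≤ 1 / 1024) :
    ∫ p, opS σ Λ (cut ε (ε * 2 ^ n)) g p ^ 2 ≤
      (131000 * n + 128 * (Λ * (ε * 2 ^ n)) * n) * ∫ p, g p ^ 2 := by
  induction n with
  | zero => unfold opS; rw [cut_zero]; simp
  | succ n ih =>
    have hΛ := h.pos
    have hp : ε * 2 ^ (n + 1) = 2 * (ε * 2 ^ n) := by rw [pow_succ]; ring
    have hL : 0 < ε * 2 ^ n := by positivity
    rw [hp] at hn
    have hn' : ε * 2 ^ n * Λ ≤ 1 / 1024 := by nlinarith
    obtain ⟨hS1, -⟩ := h.opS_spec hg hε (b := ε * 2 ^ n) (by linarith)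
    obtain ⟨hS2, -⟩ := h.opS_spec hg hL (b := 2 * (ε * 2 ^ n)) (by linarith)
    have hlin : ∀ x, opS σ Λ (cut ε (ε * 2 ^ (n + 1))) g x =
        opS σ Λ (cut ε (ε * 2 ^ n)) g x + opS σ Λ (cut (ε * 2 ^ n) (2 * (ε * 2 ^ n))) g x := by
      intro x
      obtain ⟨B, hB0, hB⟩ := hg.bdd
      have hm : Measurable fun t => g (back σ Λ t x) :=
        hg.meas.comp (h.measurable_back.comp (measurable_id.prodMk measurable_const))
      have hint : ∀ a b, 0 < a → Integrable fun t => cut a b t * g (back σ Λ t x) := fun a b ha =>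
        (integrable_cut ha).mul_bdd (c := B) hm.aestronglyMeasurable
          (Eventually.of_forall fun t => by simpa using hB _)
      simp only [opS]
      rw [← integral_add (hint _ _ hε) (hint _ _ hL)]
      simp only [cut_add hε n, add_mul]
    simp only [hlin]
    set A := opS σ Λ (cut ε (ε * 2 ^ n)) g
    set B := opS σ Λ (cut (ε * 2 ^ n) (2 * (ε * 2 ^ n))) g
    have e : (fun x => (A x + B x) ^ 2) = fun x => A x ^ 2 + (2 * (B x * A x) + B x ^ 2) := by
      funext x; ring
    have ic : Integrable fun x => 2 * (B x * A x) := (hS2.mul hS1).integrable.const_mul 2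
    rw [e, integral_add hS1.sq_integrable (g := fun x => 2 * (B x * A x) + B x ^ 2)
      (ic.add hS2.sq_integrable), integral_add ic hS2.sq_integrable, integral_const_mul]
    have c1 := h.cross hg hε n hn'
    have c2 := h.opS_dyadic_sq hg hL (by linarith)
    have c3 := ih hn'
    have hX : 0 ≤ ∫ p, g p ^ 2 := integral_nonneg fun p => sq_nonneg _
    have hmid := (abs_le.mp c1).2
    rw [hp]; push_cast
    have hx2 : 0 ≤ Λ * (ε * 2 ^ n) * (∫ p, g p ^ 2) := by positivity
    nlinarith

end Main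

/-- The main model estimate. -/
theorem Slope.opT_sq {σ : ℝ × ℝ → ℝ} {Λ : ℝ} (h : Slope σ Λ) {f : ℝ × ℝ → ℝ}
    (hf : Nice volume f) {ε : ℝ} (hε : 0 < ε) (n : ℕ) (hn : ε * 2 ^ n * Λ ≤ 1 / 1024) :
    ∫ p, opT σ (cut ε (ε * 2 ^ n)) f p ^ 2 ≤ 300000 * (n + 1) * ∫ p, f p ^ 2 := by
  have hΛ := h.pos
  set L := ε * 2 ^ n with hLdef
  have hL : 0 < L := by positivity
  obtain ⟨hT, hu⟩ := h.opT_spec hf hε (b := L) (by linarith)
  set g := opT σ (cut ε L) f with hg
  obtain ⟨hS, hv⟩ := h.opS_spec hT hε (b := L) (by linarith)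
  set G := ∫ p, g p ^ 2 with hG
  set F := ∫ p, f p ^ 2 with hF
  have hG0 : 0 ≤ G := integral_nonneg fun p => sq_nonneg _
  have hF0 : 0 ≤ F := integral_nonneg fun p => sq_nonneg _
  obtain ⟨hi1, he1⟩ := hu g hT
  obtain ⟨hi2, he2⟩ := hv f hf
  have hS2 := h.opS_sq hT hε n hn
  rw [← hLdef, ← hG] at hS2
  have ee : G = ∫ t, cut ε L t * ∫ p, f (shift σ t p) * g p := by
    rw [← he1]; simp only [hG, sq]
  have hd : |G - ∫ p, opS σ Λ (cut ε L) g p * f p| ≤
      2 * (Λ * L) * (2 * (Real.sqrt F * Real.sqrt G)) := by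
    rw [he2]
    nth_rw 1 [ee]
    rw [← integral_sub hi1 hi2]
    simp only [← mul_sub]
    have hW : Integrable fun t => |cut ε L t| * |t| := by
      refine ((integrable_cut (b := L) hε).abs.mul_const L).mono'
        (((measurable_cut _ _).abs.mul measurable_id.abs).aestronglyMeasurable)
        (Eventually.of_forall fun t => ?_)
      rw [Real.norm_eq_abs, abs_mul, abs_abs, abs_abs]
      by_cases ht : cut ε L t = 0
      · simp [ht]
      · exact mul_le_mul_of_nonneg_left (h.cut_small (by linarith) ht).2.le (abs_nonneg _)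
    refine abs_integral_le_integral_abs.trans
      ((integral_mono_of_nonneg (Eventually.of_forall fun t => abs_nonneg _)
        (hW.mul_const (Λ * (2 * (Real.sqrt F * Real.sqrt G)))) (Eventually.of_forall fun t => ?_)).trans ?_)
    · simp only [abs_mul]
      by_cases ht : cut ε L t = 0
      · simp [ht]
      have hts := (h.cut_small (b := L) (by linarith) ht).1
      obtain ⟨n1, -, s1⟩ := h.nice_shift hts hf
      have htr := h.transfer hts hf hT
      have hc : ∫ p, |f (shift σ t p)| * |g p| ≤ 2 * (Real.sqrt F * Real.sqrt G) := by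
        refine (le_abs_self _).trans ((abs_integral_mul_le_two n1.abs hT.abs (A := 2 * F) (B := G)
          (by simp only [sq_abs]; exact s1) (by simp only [sq_abs]; rfl)).trans ?_)
        rw [Real.sqrt_mul two_pos.le, mul_assoc]
        gcongr
        exact Real.sqrt_le_iff.mpr ⟨by norm_num, by norm_num⟩
      have e' : ∫ p, g (back σ Λ t p) * f p = ∫ p, f p * g (back σ Λ t p) := by
        congr 1; funext p; ring
      rw [e']
      calc |cut ε L t| * _ ≤ |cut ε L t| * (|t| * Λ * (2 * (Real.sqrt F * Real.sqrt G))) :=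
            mul_le_mul_of_nonneg_left (htr.trans (mul_le_mul_of_nonneg_left hc (by positivity)))
              (abs_nonneg _)
        _ = _ := by ring
    · rw [integral_mul_const]
      calc _ ≤ 2 * L * (Λ * (2 * (Real.sqrt F * Real.sqrt G))) :=
            mul_le_mul_of_nonneg_right (integral_abs_mul_cut hL.le) (by positivity)
        _ = _ := by ring
  have hcs := abs_integral_mul_le_two hS hf hS2 (le_refl F)
  set N := (131000 * (n : ℝ) + 128 * (Λ * L) * n) with hN
  have hN0 : 0 ≤ N := by positivity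
  rw [Real.sqrt_mul hN0] at hcs
  have hmainG : G ≤ (Real.sqrt N + 4 * (Λ * L)) * (Real.sqrt F * Real.sqrt G) := by
    nlinarith [(abs_le.mp hd).2, (abs_le.mp hcs).2]
  have key : Real.sqrt G ≤ (Real.sqrt N + 4 * (Λ * L)) * Real.sqrt F := by
    rcases (Real.sqrt_nonneg G).eq_or_lt with h0 | h0
    · rw [← h0]; positivity
    · refine le_of_mul_le_mul_right ?_ h0
      rw [Real.mul_self_sqrt hG0]; linarith
  have := pow_le_pow_left₀ (Real.sqrt_nonneg G) key 2
  rw [Real.sq_sqrt hG0, mul_pow, Real.sq_sqrt hF0] at this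
  refine this.trans (mul_le_mul_of_nonneg_right ?_ hF0)
  have hs := Real.sq_sqrt hN0
  have hΛL : Λ * L ≤ 1 / 1024 := by linarith
  have hΛL0 : 0 ≤ Λ * L := by positivity
  nlinarith [sq_nonneg (Real.sqrt N - 4 * (Λ * L)), mul_le_mul hΛL hΛL hΛL0 (by norm_num : (0:ℝ) ≤ 1 / 1024),
    mul_le_mul_of_nonneg_right hΛL (Nat.cast_nonneg (α := ℝ) n)]

end

end Vale.Agent.P112
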