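import Vale.Agent.P112.Column

/-!
# P112: shears along a slope field that is Lipschitz in the vertical variable
-/

namespace Vale.Agent.P112

open MeasureTheory Filter Set
open scoped Topology ENNReal

noncomputable section

/-- A measurable slope, `Λ`-Lipschitz in the vertical variable. -/
structure Slope (σ : ℝ × ℝ → ℝ) (Λ : ℝ) : Prop where
  meas : Measurable σ
  pos : 0 < Λ
  lip : ∀ c m m', |σ (c, m) - σ (c, m')| ≤ Λ * |m - m'|

variable {σ : ℝ × ℝ → ℝ} {Λ : ℝ}

def shift (σ : ℝ × ℝ → ℝ) (t : ℝ) (p : ℝ × ℝ) : ℝ × ℝ := (p.1 + t, p.2 + t * σ p)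

/-- Approximations to the solution of `w + s σ (c, w) = b`. -/
def iter (σ : ℝ × ℝ → ℝ) (Λ : ℝ) : ℕ → ℝ × ℝ × ℝ → ℝ
  | 0 => fun q => q.2.1
  | n + 1 => fun q =>
      q.2.1 - (if |q.2.2| * Λ ≤ 1 / 2 then q.2.2 else 0) * σ (q.1, iter σ Λ n q)

def solv (σ : ℝ × ℝ → ℝ) (Λ : ℝ) (q : ℝ × ℝ × ℝ) : ℝ :=
  limUnder atTop fun n => iter σ Λ n q

def back (σ : ℝ × ℝ → ℝ) (Λ t : ℝ) (p : ℝ × ℝ) : ℝ × ℝ :=
  (p.1 - t, solv σ Λ (p.1 - t, p.2, t))

variable (h : Slope σ Λ)
include h

lemma Slope.iter_tendsto (q : ℝ × ℝ × ℝ) :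
    Tendsto (fun n => iter σ Λ n q) atTop (𝓝 (solv σ Λ q)) := by
  set t := if |q.2.2| * Λ ≤ 1 / 2 then q.2.2 else 0 with ht
  have htΛ : |t| * Λ ≤ 1 / 2 := by
    rw [ht]; split_ifs with hc
    · exact hc
    · simp
  apply CauchySeq.tendsto_limUnder
  refine cauchySeq_of_le_geometric (1 / 2) (|iter σ Λ 1 q - iter σ Λ 0 q|) (by norm_num) fun n => ?_
  induction n with
  | zero => simp [Real.dist_eq, abs_sub_comm]
  | succ n ih =>
    rw [Real.dist_eq] at ih ⊢
    have e : iter σ Λ (n + 1) q - iter σ Λ (n + 1 + 1) q =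
        t * (σ (q.1, iter σ Λ (n + 1) q) - σ (q.1, iter σ Λ n q)) := by
      rw [show iter σ Λ (n + 1 + 1) q = q.2.1 - t * σ (q.1, iter σ Λ (n + 1) q) from rfl,
        show iter σ Λ (n + 1) q = q.2.1 - t * σ (q.1, iter σ Λ n q) from rfl]
      ring
    have hl := h.lip q.1 (iter σ Λ (n + 1) q) (iter σ Λ n q)
    rw [abs_sub_comm (iter σ Λ (n + 1) q)] at hl
    rw [e, abs_mul, pow_succ]
    calc |t| * |σ (q.1, iter σ Λ (n + 1) q) - σ (q.1, iter σ Λ n q)|
        ≤ |t| * (Λ * |iter σ Λ n q - iter σ Λ (n + 1) q|) :=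
          mul_le_mul_of_nonneg_left hl (abs_nonneg t)
      _ ≤ 1 / 2 * |iter σ Λ n q - iter σ Λ (n + 1) q| := by
          rw [← mul_assoc]; exact mul_le_mul_of_nonneg_right htΛ (abs_nonneg _)
      _ ≤ _ := by linarith

lemma Slope.measurable_solv : Measurable (solv σ Λ) := by
  refine measurable_of_tendsto_metrizable (f := iter σ Λ) (fun n => ?_)
    (tendsto_pi_nhds.mpr fun q => h.iter_tendsto q)
  induction n with
  | zero => exact (by fun_prop : Measurable fun q : ℝ × ℝ × ℝ => q.2.1)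
  | succ n ih =>
    refine (measurable_fst.comp measurable_snd).sub (Measurable.mul ?_ (h.meas.comp (measurable_fst.prodMk ih)))
    exact Measurable.ite (measurableSet_le (by fun_prop) measurable_const) (by fun_prop) measurable_const

lemma Slope.continuous_slice (c : ℝ) : Continuous fun m => σ (c, m) :=
  (LipschitzWith.of_dist_le_mul (K := Λ.toNNReal) fun m m' => by
    rw [Real.coe_toNNReal _ h.pos.le, Real.dist_eq, Real.dist_eq]; exact h.lip c m m').continuous

lemma Slope.solv_eq {c b s : ℝ} (hs : |s| * Λ ≤ 1 / 2) :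
    solv σ Λ (c, b, s) + s * σ (c, solv σ Λ (c, b, s)) = b := by
  have h1 := h.iter_tendsto (c, b, s)
  have h2 : Tendsto (fun n => iter σ Λ (n + 1) (c, b, s)) atTop
      (𝓝 (b - s * σ (c, solv σ Λ (c, b, s)))) := by
    simp only [iter, if_pos hs]
    exact ((((h.continuous_slice c).tendsto _).comp h1).const_mul s).const_sub b
  have := tendsto_nhds_unique (h1.comp (tendsto_add_atTop_nat 1)) h2
  linarith

lemma Slope.stretch_shift {t : ℝ} (r : ℝ) :
    Stretch (fun u => u + t * σ (r, u)) 1 (|t| * Λ) := by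
  intro u u'
  have : |t * σ (r, u) - t * σ (r, u')| ≤ |t| * Λ * |u - u'| := by
    rw [← mul_sub, abs_mul, mul_assoc]
    exact mul_le_mul_of_nonneg_left (h.lip r u u') (abs_nonneg t)
  have a := abs_le.mp this
  constructor
  · have := abs_sub_abs_le_abs_sub (u - u') ((u - u') - ((u + t * σ (r, u)) - (u' + t * σ (r, u'))))
    rw [sub_sub_cancel] at this
    have e : |(u - u') - ((u + t * σ (r, u)) - (u' + t * σ (r, u')))| = |t * σ (r, u) - t * σ (r, u')| := by
      rw [← abs_neg]; congr 1; ring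
    linarith
  · have := abs_add_le (u - u') (t * σ (r, u) - t * σ (r, u'))
    rw [show (u - u') + (t * σ (r, u) - t * σ (r, u')) =
      (u + t * σ (r, u)) - (u' + t * σ (r, u')) by ring] at this
    linarith

lemma Slope.solv_unique {c b s w : ℝ} (hs : |s| * Λ ≤ 1 / 4) (hw : w + s * σ (c, w) = b) :
    solv σ Λ (c, b, s) = w := by
  have h1 := (h.stretch_shift (t := s) c (solv σ Λ (c, b, s)) w).1
  simp only [h.solv_eq (show |s| * Λ ≤ 1 / 2 by linarith), hw, sub_self, abs_zero] at h1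
  have : |solv σ Λ (c, b, s) - w| ≤ 0 := by nlinarith [abs_nonneg (solv σ Λ (c, b, s) - w)]
  exact sub_eq_zero.mp (abs_nonpos_iff.mp this)

lemma Slope.stretch_solv {t : ℝ} (ht : |t| * Λ ≤ 1 / 4) (c : ℝ) :
    Stretch (fun b => solv σ Λ (c, b, t)) 1 (1 / 2) := by
  intro b b'
  obtain ⟨l, u⟩ := h.stretch_shift (t := t) c (solv σ Λ (c, b, t)) (solv σ Λ (c, b', t))
  simp only [h.solv_eq (show |t| * Λ ≤ 1 / 2 by linarith)] at l u
  have := abs_nonneg (solv σ Λ (c, b, t) - solv σ Λ (c, b', t))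
  show 1 * (1 - 1 / 2) * |b - b'| ≤ |solv σ Λ (c, b, t) - solv σ Λ (c, b', t)| ∧
    |solv σ Λ (c, b, t) - solv σ Λ (c, b', t)| ≤ 1 * (1 + 1 / 2) * |b - b'|
  constructor <;> nlinarith [mul_le_mul_of_nonneg_right ht this]

lemma Slope.measurable_shift : Measurable fun q : ℝ × (ℝ × ℝ) => shift σ q.1 q.2 := by
  have := h.meas
  unfold shift; fun_prop

lemma Slope.measurable_back : Measurable fun q : ℝ × (ℝ × ℝ) => back σ Λ q.1 q.2 := by
  have := h.measurable_solv
  unfold back; fun_prop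

lemma Slope.measurable_shift' (t : ℝ) : Measurable (shift σ t) :=
  h.measurable_shift.comp measurable_prodMk_left

lemma Slope.measurable_back' (t : ℝ) : Measurable (back σ Λ t) :=
  h.measurable_back.comp measurable_prodMk_left

lemma Slope.lintegral_shift_le {t : ℝ} (ht : |t| * Λ ≤ 1 / 4) {F : ℝ × ℝ → ℝ≥0∞}
    (hF : Measurable F) : ∫⁻ p, F (shift σ t p) ≤ 2 * ∫⁻ p, F p := by
  rw [Measure.volume_eq_prod, lintegral_prod (fun p => F (shift σ t p)) (hF.comp (h.measurable_shift' t)).aemeasurable,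
    lintegral_prod _ hF.aemeasurable, ← lintegral_add_right_eq_self (fun r => ∫⁻ b, F (r, b)) t,
    ← lintegral_const_mul' _ _ (by norm_num)]
  refine lintegral_mono fun r => ?_
  have hs := h.stretch_shift (t := t) r
  have hη0 : (0 : ℝ) ≤ |t| * Λ := mul_nonneg (abs_nonneg t) h.pos.le
  have := hs.lintegral_comp_le one_pos hη0 (by linarith) (f := fun b => F (r + t, b))
    (hF.comp measurable_prodMk_left)
  calc ∫⁻ u, F (shift σ t (r, u))
      = ENNReal.ofReal 2 * (ENNReal.ofReal (1 / 2) * ∫⁻ u, F (shift σ t (r, u))) := by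
        rw [← mul_assoc, ← ENNReal.ofReal_mul two_pos.le]; norm_num
    _ ≤ ENNReal.ofReal 2 * ∫⁻ b, F (r + t, b) := by
        gcongr
        exact le_trans (mul_le_mul' (ENNReal.ofReal_le_ofReal (by linarith)) le_rfl) this
    _ = _ := by norm_num

lemma Slope.lintegral_back_le {t : ℝ} (ht : |t| * Λ ≤ 1 / 4) {F : ℝ × ℝ → ℝ≥0∞}
    (hF : Measurable F) : ∫⁻ p, F (back σ Λ t p) ≤ 2 * ∫⁻ p, F p := by
  rw [Measure.volume_eq_prod, lintegral_prod (fun p => F (back σ Λ t p)) (hF.comp (h.measurable_back' t)).aemeasurable,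
    lintegral_prod _ hF.aemeasurable, ← lintegral_sub_right_eq_self (fun r => ∫⁻ b, F (r, b)) t,
    ← lintegral_const_mul' _ _ (by norm_num)]
  refine lintegral_mono fun r => ?_
  have hs := h.stretch_solv ht (r - t)
  have := hs.lintegral_comp_le one_pos (by norm_num) (by norm_num) (f := fun b => F (r - t, b))
    (hF.comp measurable_prodMk_left)
  calc ∫⁻ u, F (back σ Λ t (r, u))
      = ENNReal.ofReal 2 * (ENNReal.ofReal (1 * (1 - 1 / 2)) * ∫⁻ u, F (back σ Λ t (r, u))) := by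
        rw [← mul_assoc, ← ENNReal.ofReal_mul two_pos.le]; norm_num
    _ ≤ ENNReal.ofReal 2 * ∫⁻ b, F (r - t, b) := by gcongr; exact this
    _ = _ := by norm_num

omit h in
lemma comp_of_lintegral_le {τ : ℝ × ℝ → ℝ × ℝ} (hτ : Measurable τ)
    (hle : ∀ F : ℝ × ℝ → ℝ≥0∞, Measurable F → ∫⁻ p, F (τ p) ≤ 2 * ∫⁻ p, F p)
    {f : ℝ × ℝ → ℝ} (hf : Measurable f) (hfi : Integrable f) :
    Integrable (fun p => f (τ p)) ∧ ∫ p, |f (τ p)| ≤ 2 * ∫ p, |f p| := by
  have h1 := hle (fun p => ENNReal.ofReal |f p|) hf.abs.ennreal_ofReal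
  rw [← ofReal_integral_eq_lintegral_ofReal hfi.abs (Eventually.of_forall fun p => abs_nonneg _)] at h1
  have hint : Integrable (fun p => f (τ p)) := by
    refine ⟨(hf.comp hτ).aestronglyMeasurable, ?_⟩
    rw [hasFiniteIntegral_iff_norm]
    exact lt_of_le_of_lt (by simpa [Real.norm_eq_abs] using h1)
      (ENNReal.mul_lt_top (by norm_num) ENNReal.ofReal_lt_top)
  refine ⟨hint, ?_⟩
  rw [← ofReal_integral_eq_lintegral_ofReal hint.abs (Eventually.of_forall fun p => abs_nonneg _),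
    show (2 : ℝ≥0∞) = ENNReal.ofReal 2 by norm_num, ← ENNReal.ofReal_mul two_pos.le] at h1
  exact (ENNReal.ofReal_le_ofReal_iff
    (mul_nonneg two_pos.le (integral_nonneg fun p => abs_nonneg _))).mp h1

omit h in
lemma Nice.comp_of_le {τ : ℝ × ℝ → ℝ × ℝ} (hτ : Measurable τ)
    (hle : ∀ F : ℝ × ℝ → ℝ≥0∞, Measurable F → ∫⁻ p, F (τ p) ≤ 2 * ∫⁻ p, F p)
    {f : ℝ × ℝ → ℝ} (hf : Nice volume f) :
    Nice volume (fun p => f (τ p)) ∧ (∫ p, |f (τ p)| ≤ 2 * ∫ p, |f p|) ∧
      ∫ p, f (τ p) ^ 2 ≤ 2 * ∫ p, f p ^ 2 := by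
  obtain ⟨B, hB0, hB⟩ := hf.bdd
  obtain ⟨a, b⟩ := comp_of_lintegral_le hτ hle hf.meas hf.integrable
  refine ⟨⟨hf.meas.comp hτ, a, B, hB0, fun p => hB _⟩, b, ?_⟩
  have := (comp_of_lintegral_le hτ hle (hf.meas.pow_const 2) hf.sq_integrable).2
  simpa only [abs_pow, sq_abs] using this

lemma Slope.nice_shift {t : ℝ} (ht : |t| * Λ ≤ 1 / 4) {f : ℝ × ℝ → ℝ} (hf : Nice volume f) :
    Nice volume (fun p => f (shift σ t p)) ∧ (∫ p, |f (shift σ t p)| ≤ 2 * ∫ p, |f p|) ∧
      ∫ p, f (shift σ t p) ^ 2 ≤ 2 * ∫ p, f p ^ 2 :=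
  Nice.comp_of_le (h.measurable_shift' t) (fun _ hF => h.lintegral_shift_le ht hF) hf

lemma Slope.nice_back {t : ℝ} (ht : |t| * Λ ≤ 1 / 4) {f : ℝ × ℝ → ℝ} (hf : Nice volume f) :
    Nice volume (fun p => f (back σ Λ t p)) ∧ (∫ p, |f (back σ Λ t p)| ≤ 2 * ∫ p, |f p|) ∧
      ∫ p, f (back σ Λ t p) ^ 2 ≤ 2 * ∫ p, f p ^ 2 :=
  Nice.comp_of_le (h.measurable_back' t) (fun _ hF => h.lintegral_back_le ht hF) hf

/-- Moving a shear to the other factor costs only `|t| Λ`. -/
lemma Slope.transfer {t : ℝ} (ht : |t| * Λ ≤ 1 / 4) {f g : ℝ × ℝ → ℝ}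
    (hf : Nice volume f) (hg : Nice volume g) :
    |(∫ p, f (shift σ t p) * g p) - ∫ p, f p * g (back σ Λ t p)| ≤
      |t| * Λ * ∫ p, |f (shift σ t p)| * |g p| := by
  obtain ⟨nf, -, -⟩ := h.nice_shift ht hf
  obtain ⟨ng, -, -⟩ := h.nice_back ht hg
  have i1 : Integrable (fun p => f (shift σ t p) * g p) (volume.prod volume) := (nf.mul hg).integrable
  have i2 : Integrable (fun p => f p * g (back σ Λ t p)) (volume.prod volume) := (hf.mul ng).integrable
  have i3 : Integrable (fun p => |f (shift σ t p)| * |g p|) (volume.prod volume) :=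
    (nf.abs.mul hg.abs).integrable
  rw [Measure.volume_eq_prod, integral_prod _ i1, integral_prod _ i2, integral_prod _ i3]
  have j2 : Integrable (fun r => ∫ b, f (r + t, b) * g (back σ Λ t (r + t, b))) :=
    i2.integral_prod_left.comp_add_right t
  rw [← integral_add_right_eq_self (fun a => ∫ b, f (a, b) * g (back σ Λ t (a, b))) t,
    ← integral_sub i1.integral_prod_left j2, ← integral_const_mul]
  refine abs_integral_le_integral_abs.trans (integral_mono_ae
    (i1.integral_prod_left.sub j2).abs (i3.integral_prod_left.const_mul _) ?_)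
  have hs2 : ∀ᵐ r : ℝ, Integrable fun b => f (r + t, b) * g (back σ Λ t (r + t, b)) :=
    (measurePreserving_add_right volume t).quasiMeasurePreserving.ae i2.prod_right_ae
  filter_upwards [hs2] with r hr
  have hst := h.stretch_shift (t := t) r
  have hm : Measurable fun b => f (r + t, b) * g (back σ Λ t (r + t, b)) := by
    have := hf.meas
    have := hg.meas
    have := h.measurable_back' t
    fun_prop
  have key := hst.abs_sub_le one_pos (mul_nonneg (abs_nonneg t) h.pos.le) (by linarith) hm hr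
  have e : ∀ u, g (back σ Λ t (r + t, u + t * σ (r, u))) = g (r, u) := fun u => by
    rw [back]
    simp only [add_sub_cancel_right]
    rw [h.solv_unique ht rfl]
  simp only [e, inv_one, one_mul, abs_mul] at key
  exact key

end

end Vale.Agent.P112
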