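import Vale.Agent.P112.Maximal

/-!
# P112: the countable maximal operator and domination of truncated Hilbert integrals
-/

namespace Vale.Agent.P112

open MeasureTheory Filter Set
open scoped Topology ENNReal

noncomputable section

variable {ker : ℝ → ℝ → ℝ} {g : ℝ → ℝ} {es : ℕ → ℝ}

lemma maxBound_pp_crude (hes : ∀ i, 0 < es i) (n : ℕ) :
    MaxBound pp es n (Real.pi * n) := by
  intro g hg
  induction n with
  | zero => simp [mx]
  | succ n ih =>
    obtain ⟨hi, hle⟩ := ih
    set c := conv (pp (es n)) g with hc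
    have he := hes n
    have hcm : Measurable c := measurable_conv (measurable_pp _) hg.meas
    have hQ : Integrable (fun q : ℝ × ℝ => pp (es n) (q.1 - q.2) * g q.2 ^ 2)
        (volume.prod volume) := by
      rw [integrable_prod_iff' (Measurable.aestronglyMeasurable (by have := hg.meas; fun_prop))]
      refine ⟨Eventually.of_forall fun y => by simpa using ((integral_pp he).1.comp_sub_right y).mul_const (g y ^ 2), ?_⟩
      refine (hg.sq_integrable.const_mul Real.pi).congr (Eventually.of_forall fun y => ?_)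
      have : ∀ u, ‖pp (es n) (u - y) * g y ^ 2‖ = pp (es n) (u - y) * g y ^ 2 := fun u => by
        rw [Real.norm_eq_abs, abs_of_nonneg (mul_nonneg (pp_nonneg he _) (sq_nonneg _))]
      simp only [this]
      rw [integral_mul_const, integral_sub_right_eq_self (pp (es n)) y, (integral_pp he).2]
    have hpt : ∀ u, c u ^ 2 ≤ Real.pi * ∫ y, pp (es n) (u - y) * g y ^ 2 := by
      intro u
      have hm1 : Measurable fun y => Real.sqrt (pp (es n) (u - y)) := by fun_prop
      have hm2 : Measurable fun y => Real.sqrt (pp (es n) (u - y)) * g y := hm1.mul hg.meas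
      have hs : ∀ y, Real.sqrt (pp (es n) (u - y)) ^ 2 = pp (es n) (u - y) := fun y =>
        Real.sq_sqrt (pp_nonneg he _)
      have hrow : Integrable fun y => pp (es n) (u - y) * g y ^ 2 :=
        hg.sq_integrable.bdd_mul (c := (es n)⁻¹) (Measurable.aestronglyMeasurable (by fun_prop))
          (Eventually.of_forall fun y => by simpa using good_pp.abs_le he _)
      have hcs := abs_integral_mul_le_sqrt (μ := volume) hm1.aestronglyMeasurable
        hm2.aestronglyMeasurable
        (by simp_rw [hs]; exact (integral_pp he).1.comp_sub_left u)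
        (by simp_rw [mul_pow, hs]; exact hrow)
      simp_rw [mul_pow, hs, integral_sub_left_eq_self (pp (es n)), (integral_pp he).2,
        ← mul_assoc, Real.mul_self_sqrt (pp_nonneg he _)] at hcs
      have h0 : 0 ≤ ∫ y, pp (es n) (u - y) * g y ^ 2 :=
        integral_nonneg fun y => mul_nonneg (pp_nonneg he _) (sq_nonneg _)
      have := pow_le_pow_left₀ (abs_nonneg _) hcs 2
      rw [sq_abs, mul_pow, Real.sq_sqrt Real.pi_pos.le, Real.sq_sqrt h0] at this
      exact this
    have hci : Integrable (fun u => c u ^ 2) :=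
      (hQ.integral_prod_left.const_mul Real.pi).mono' (hcm.pow_const 2).aestronglyMeasurable
        (Eventually.of_forall fun u => by
          rw [Real.norm_eq_abs, abs_of_nonneg (sq_nonneg _)]; exact hpt u)
    have hcb : ∫ u, c u ^ 2 ≤ Real.pi ^ 2 * ∫ u, g u ^ 2 := by
      calc ∫ u, c u ^ 2 ≤ ∫ u, Real.pi * ∫ y, pp (es n) (u - y) * g y ^ 2 :=
            integral_mono hci (hQ.integral_prod_left.const_mul Real.pi) hpt
        _ = Real.pi * ∫ y, ∫ u, pp (es n) (u - y) * g y ^ 2 := by
            rw [integral_const_mul,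
              integral_integral_swap (f := fun u y => pp (es n) (u - y) * g y ^ 2) hQ]
        _ = _ := by
            have : ∀ y, ∫ u, pp (es n) (u - y) * g y ^ 2 = Real.pi * g y ^ 2 := fun y => by
              rw [integral_mul_const, integral_sub_right_eq_self (pp (es n)) y, (integral_pp he).2]
            simp_rw [this]
            rw [integral_const_mul]; ring
    have hmm := measurable_mx (ker := pp) (es := es) good_pp hg.meas
    have hsum : ∀ u, mx pp es g (n + 1) u ^ 2 ≤ mx pp es g n u ^ 2 + c u ^ 2 := fun u => by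
      simp only [mx, ← hc]
      rcases max_choice (mx pp es g n u) |c u| with h | h <;> rw [h] <;>
        simp [sq_nonneg]
    have hi' : Integrable (fun u => mx pp es g (n + 1) u ^ 2) :=
      (hi.add hci).mono' ((hmm _).pow_const 2).aestronglyMeasurable
        (Eventually.of_forall fun u => by
          rw [Real.norm_eq_abs, abs_of_nonneg (sq_nonneg _)]; exact hsum u)
    refine ⟨hi', ?_⟩
    calc ∫ u, mx pp es g (n + 1) u ^ 2 ≤ ∫ u, (mx pp es g n u ^ 2 + c u ^ 2) :=
          integral_mono hi' (hi.add hci) hsum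
      _ = (∫ u, mx pp es g n u ^ 2) + ∫ u, c u ^ 2 := integral_add hi hci
      _ ≤ _ := by
          have hg0 : 0 ≤ ∫ u, g u ^ 2 := integral_nonneg fun u => sq_nonneg _
          push_cast
          nlinarith [hle, hcb, mul_nonneg (mul_nonneg (sq_nonneg Real.pi) (Nat.cast_nonneg (α := ℝ) n)) hg0]

lemma MaxBound.mono {n : ℕ} {C D : ℝ} (h : MaxBound ker es n C) (hC : 0 ≤ C) (hCD : C ≤ D) :
    MaxBound ker es n D := fun g hg =>
  ⟨(h g hg).1, (h g hg).2.trans
    (mul_le_mul_of_nonneg_right (pow_le_pow_left₀ hC hCD 2) (integral_nonneg fun _ => sq_nonneg _))⟩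

lemma maxBound_eight (hker : Good ker) (hes : ∀ i, 0 < es i) (n : ℕ) : MaxBound ker es n 8 := by
  have hpi := Real.pi_pos
  have hC : ∀ k : ℕ, MaxBound pp es n (2 * Real.pi + Real.pi * n / 2 ^ k) := by
    intro k
    induction k with
    | zero => exact (maxBound_pp_crude hes n).mono (by positivity) (by simp; positivity)
    | succ k ih =>
      refine (maxBound_step good_pp hes (by positivity) ih).mono (Real.sqrt_nonneg _) ?_
      rw [Real.sqrt_le_iff]
      refine ⟨by positivity, ?_⟩
      have : 0 ≤ Real.pi * n / 2 ^ k := by positivity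
      have e : Real.pi * n / 2 ^ (k + 1) = Real.pi * n / 2 ^ k / 2 := by rw [pow_succ]; ring
      rw [e]
      nlinarith [sq_nonneg (Real.pi * n / 2 ^ k / 2)]
  obtain ⟨k, hk⟩ := pow_unbounded_of_one_lt (Real.pi * n) one_lt_two
  have hC' : MaxBound pp es n (2 * Real.pi + 1) := (hC k).mono (by positivity) (by
    have : Real.pi * n / 2 ^ k ≤ 1 := (div_le_one (by positivity)).mpr hk.le
    linarith)
  refine (maxBound_step hker hes (by positivity) hC').mono (Real.sqrt_nonneg _) ?_
  rw [Real.sqrt_le_iff]
  exact ⟨by norm_num, by nlinarith [Real.pi_lt_d2, Real.pi_gt_three]⟩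

/-- An enumeration of all dyadic parameters. -/
def dy (i : ℕ) : ℝ := (2 : ℝ) ^ (Equiv.intEquivNat.symm i)

lemma dy_pos (i : ℕ) : 0 < dy i := zpow_pos two_pos _

/-- The maximal operator over dyadic parameters. -/
def maxOp (ker : ℝ → ℝ → ℝ) (g : ℝ → ℝ) (u : ℝ) : ℝ≥0∞ :=
  ⨆ n, ENNReal.ofReal (mx ker dy g n u)

lemma lintegral_maxOp_sq (hker : Good ker) (hg : Nice volume g) :
    ∫⁻ u, maxOp ker g u ^ 2 ≤ ENNReal.ofReal (64 * ∫ u, g u ^ 2) := by
  have hm := measurable_mx (es := dy) hker hg.meas
  have hmono : Monotone fun n u => ENNReal.ofReal (mx ker dy g n u ^ 2) :=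
    monotone_nat_of_le_succ fun n u => ENNReal.ofReal_le_ofReal
      (pow_le_pow_left₀ (mx_nonneg n u) (le_max_left _ _) 2)
  calc ∫⁻ u, maxOp ker g u ^ 2 = ∫⁻ u, ⨆ n, ENNReal.ofReal (mx ker dy g n u ^ 2) := by
        congr 1; funext u
        simp only [maxOp]
        rw [Monotone.map_iSup_of_continuousAt (f := fun x : ℝ≥0∞ => x ^ 2)
          (ENNReal.continuous_pow 2).continuousAt (pow_left_mono 2) (by simp)]
        congr 1; funext n
        simp only [← ENNReal.ofReal_pow (mx_nonneg n u)]
    _ = ⨆ n, ∫⁻ u, ENNReal.ofReal (mx ker dy g n u ^ 2) :=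
        lintegral_iSup (fun n => ((hm n).pow_const 2).ennreal_ofReal) hmono
    _ ≤ _ := iSup_le fun n => by
        obtain ⟨h1, h2⟩ := maxBound_eight hker dy_pos n g hg
        rw [← ofReal_integral_eq_lintegral_ofReal h1 (Eventually.of_forall fun u => sq_nonneg _)]
        exact ENNReal.ofReal_le_ofReal (h2.trans_eq (by norm_num))

end

end Vale.Agent.P112
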