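import Vale.Agent.P112.Model

/-!
# P112: from slopes to unit fields, in plane coordinates
-/

namespace Vale.Agent.P112

open MeasureTheory Filter Set
open scoped Topology ENNReal NNReal

noncomputable section

/-- A unit field with both components `1`-Lipschitz for the Euclidean distance. -/
structure UnitField (w : ℝ × ℝ → ℝ × ℝ) : Prop where
  unit : ∀ p, (w p).1 ^ 2 + (w p).2 ^ 2 = 1
  lip₁ : ∀ p q, |(w p).1 - (w q).1| ≤ Real.sqrt ((p.1 - q.1) ^ 2 + (p.2 - q.2) ^ 2)
  lip₂ : ∀ p q, |(w p).2 - (w q).2| ≤ Real.sqrt ((p.1 - q.1) ^ 2 + (p.2 - q.2) ^ 2)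

def move (w : ℝ × ℝ → ℝ × ℝ) (t : ℝ) (p : ℝ × ℝ) : ℝ × ℝ :=
  (p.1 - t * (w p).1, p.2 - t * (w p).2)

def trunc (w : ℝ × ℝ → ℝ × ℝ) (ε a : ℝ) (g : ℝ × ℝ → ℝ) (p : ℝ × ℝ) : ℝ :=
  ∫ t, (ann ε a).indicator (fun t => g (move w t p) / t) t

variable {w : ℝ × ℝ → ℝ × ℝ} (hw : UnitField w)

lemma sqrt_le_two_dist (p q : ℝ × ℝ) :
    Real.sqrt ((p.1 - q.1) ^ 2 + (p.2 - q.2) ^ 2) ≤ 2 * dist p q := by
  have h1 : |p.1 - q.1| ≤ dist p q := by rw [Prod.dist_eq, Real.dist_eq]; exact le_max_left _ _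
  have h2 : |p.2 - q.2| ≤ dist p q := by rw [Prod.dist_eq, Real.dist_eq]; exact le_max_of_le_right (Real.dist_eq _ _).ge
  rw [Real.sqrt_le_iff]
  refine ⟨by positivity, ?_⟩
  nlinarith [sq_abs (p.1 - q.1), sq_abs (p.2 - q.2), abs_nonneg (p.1 - q.1), abs_nonneg (p.2 - q.2)]

include hw in
lemma UnitField.lipschitz : LipschitzWith 2 w := by
  refine LipschitzWith.of_dist_le_mul fun p q => ?_
  rw [Prod.dist_eq (x := w p)]
  simp only [Real.dist_eq, NNReal.coe_ofNat]
  exact max_le ((hw.lip₁ p q).trans (sqrt_le_two_dist p q)) ((hw.lip₂ p q).trans (sqrt_le_two_dist p q))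

include hw in
lemma UnitField.measurable_move : Measurable fun z : ℝ × (ℝ × ℝ) => move w z.1 z.2 := by
  have := hw.lipschitz.continuous.measurable
  unfold move; fun_prop

include hw in
lemma UnitField.lintegral_move_le {t : ℝ} (ht : |t| ≤ 1 / 4) {F : ℝ × ℝ → ℝ≥0∞} (hF : Measurable F) :
    ∫⁻ p, F (move w t p) ≤ 4 * ∫⁻ p, F p := by
  have hm : Measurable (move w t) := hw.measurable_move.comp measurable_prodMk_left
  have hanti : AntilipschitzWith 2 (move w t) := by
    refine AntilipschitzWith.of_le_mul_dist fun p q => ?_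
    have h := hw.lipschitz.dist_le_mul p q
    simp only [Prod.dist_eq, Real.dist_eq, move, NNReal.coe_ofNat] at h ⊢
    have e : ∀ x y u v : ℝ, |x - y| ≤ |x - t * u - (y - t * v)| + |t| * |u - v| := fun x y u v => by
      rw [← abs_mul]
      calc |x - y| = |(x - t * u - (y - t * v)) + t * (u - v)| := by ring_nf
        _ ≤ _ := abs_add_le _ _
    set M := max |p.1 - q.1| |p.2 - q.2|
    have hu : |(w p).1 - (w q).1| ≤ 2 * M := (le_max_left _ _).trans h
    have hv : |(w p).2 - (w q).2| ≤ 2 * M := (le_max_right _ _).trans h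
    have hM : M ≤ max |p.1 - t * (w p).1 - (q.1 - t * (w q).1)| |p.2 - t * (w p).2 - (q.2 - t * (w q).2)| + M / 2 := by
      refine max_le ?_ ?_
      · refine (e p.1 q.1 (w p).1 (w q).1).trans (add_le_add (le_max_left _ _) ?_)
        exact (mul_le_mul ht hu (abs_nonneg _) (by norm_num)).trans (le_of_eq (by ring))
      · refine (e p.2 q.2 (w p).2 (w q).2).trans (add_le_add (le_max_right _ _) ?_)
        exact (mul_le_mul ht hv (abs_nonneg _) (by norm_num)).trans (le_of_eq (by ring))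
    linarith
  have hmap : Measure.map (move w t) volume ≤ (4 : ℝ≥0∞) • volume := by
    refine Measure.le_iff.mpr fun s hs => ?_
    rw [Measure.map_apply hm hs, Measure.smul_apply, smul_eq_mul]
    have := hanti.hausdorffMeasure_preimage_le zero_le_two s
    rw [hausdorffMeasure_prod_real] at this
    refine this.trans (le_of_eq ?_)
    norm_num
  calc ∫⁻ p, F (move w t p) = ∫⁻ p, F p ∂Measure.map (move w t) volume := (lintegral_map hF hm).symm
    _ ≤ ∫⁻ p, F p ∂((4 : ℝ≥0∞) • volume) := lintegral_mono' hmap le_rfl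
    _ = _ := by rw [lintegral_smul_measure, smul_eq_mul]

/-- An average over a family of moves is bounded by Cauchy-Schwarz. -/
lemma lintegral_sq_lintegral_le {α : Type*} [MeasurableSpace α] (μ : Measure α) [SFinite μ]
    {τ : α → ℝ × ℝ → ℝ × ℝ} (hτm : Measurable fun z : α × (ℝ × ℝ) => τ z.1 z.2) {D : Set α}
    (_hD : MeasurableSet D)
    (hτ : ∀ z ∈ D, ∀ F : ℝ × ℝ → ℝ≥0∞, Measurable F → ∫⁻ p, F (τ z p) ≤ 4 * ∫⁻ p, F p)
    {F : ℝ × ℝ → ℝ≥0∞} (hF : Measurable F) :
    ∫⁻ p, (∫⁻ z in D, F (τ z p) ∂μ) ^ 2 ≤ μ D ^ 2 * (4 * ∫⁻ p, F p ^ 2) := by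
  have hcs : ∀ p, (∫⁻ z in D, F (τ z p) ∂μ) ^ 2 ≤ μ D * ∫⁻ z in D, F (τ z p) ^ 2 ∂μ := by
    intro p
    have hm : Measurable fun z => F (τ z p) := hF.comp (hτm.comp measurable_prodMk_right)
    have h := ENNReal.lintegral_mul_le_Lp_mul_Lq (μ.restrict D) Real.HolderConjugate.two_two
      (f := fun _ => (1 : ℝ≥0∞)) (g := fun z => F (τ z p)) aemeasurable_const hm.aemeasurable
    simp only [Pi.mul_apply, one_mul, ENNReal.one_rpow, lintegral_const, Measure.restrict_apply_univ] at h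
    calc (∫⁻ z in D, F (τ z p) ∂μ) ^ 2
        ≤ (μ D ^ (1 / (2 : ℝ)) * (∫⁻ z in D, F (τ z p) ^ (2 : ℝ) ∂μ) ^ (1 / (2 : ℝ))) ^ 2 := by
          exact pow_le_pow_left' h 2
      _ = _ := by
          rw [mul_pow, ← ENNReal.rpow_natCast, ← ENNReal.rpow_mul, ← ENNReal.rpow_natCast,
            ← ENNReal.rpow_mul]
          norm_num
  have hm2 : Measurable fun z : α × (ℝ × ℝ) => F (τ z.1 z.2) ^ 2 := (hF.comp hτm).pow_const 2
  calc ∫⁻ p, (∫⁻ z in D, F (τ z p) ∂μ) ^ 2
      ≤ ∫⁻ p, μ D * ∫⁻ z in D, F (τ z p) ^ 2 ∂μ := lintegral_mono hcs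
    _ = μ D * ∫⁻ p, ∫⁻ z in D, F (τ z p) ^ 2 ∂μ :=
        lintegral_const_mul _ hm2.lintegral_prod_left'
    _ = μ D * ∫⁻ z in D, ∫⁻ p, F (τ z p) ^ 2 ∂volume ∂μ := by
        rw [lintegral_lintegral_swap (μ := volume) (ν := μ.restrict D)
          (f := fun p z => F (τ z p) ^ 2) (hm2.comp measurable_swap).aemeasurable]
    _ ≤ μ D * ∫⁻ _ in D, (4 * ∫⁻ p, F p ^ 2) ∂μ := by
        refine mul_le_mul' le_rfl (setLIntegral_mono measurable_const fun z hz => ?_)
        exact hτ z hz (fun p => F p ^ 2) (hF.pow_const 2)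
    _ = _ := by rw [setLIntegral_const, pow_two]; ring

/-- The window average along the field. -/
def win (w : ℝ × ℝ → ℝ × ℝ) (g : ℝ × ℝ → ℝ) (r : ℝ) (p : ℝ × ℝ) : ℝ :=
  ∫ t in {t : ℝ | |t| < r}, |g (move w t p)|

lemma measurableSet_win (r : ℝ) : MeasurableSet {t : ℝ | |t| < r} :=
  measurableSet_lt measurable_id.abs measurable_const

lemma volume_win {r : ℝ} : volume {t : ℝ | |t| < r} = ENNReal.ofReal (2 * r) := by
  have : {t : ℝ | |t| < r} = Ioo (-r) r := by ext t; simp [abs_lt]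
  rw [this, Real.volume_Ioo]; congr 1; ring

variable {g : ℝ × ℝ → ℝ}

include hw in
lemma UnitField.integrableOn_win (hg : Nice volume g) (r : ℝ) (p : ℝ × ℝ) :
    IntegrableOn (fun t => |g (move w t p)|) {t : ℝ | |t| < r} := by
  obtain ⟨B, hB0, hB⟩ := hg.bdd
  exact IntegrableOn.of_bound (by rw [volume_win]; exact ENNReal.ofReal_lt_top)
    (hg.meas.comp (hw.measurable_move.comp measurable_prodMk_right)).abs.aestronglyMeasurable B
    (Eventually.of_forall fun t => by simpa using hB _)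

include hw in
lemma UnitField.win_sq (hg : Nice volume g) {r : ℝ} (hr : 0 ≤ r) (hr' : r ≤ 1 / 4) :
    Integrable (fun p => win w g r p ^ 2) ∧
      ∫ p, win w g r p ^ 2 ≤ 16 * r ^ 2 * ∫ p, g p ^ 2 := by
  have hm : Measurable (win w g r) := by
    have : Measurable fun z : (ℝ × ℝ) × ℝ => |g (move w z.2 z.1)| :=
      (hg.meas.comp (hw.measurable_move.comp measurable_swap)).abs
    exact this.stronglyMeasurable.integral_prod_right'.measurable
  have hkey : ∫⁻ p, ENNReal.ofReal (win w g r p ^ 2) ≤ ENNReal.ofReal (16 * r ^ 2 * ∫ p, g p ^ 2) := by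
    have h := lintegral_sq_lintegral_le volume hw.measurable_move (measurableSet_win r)
      (fun t ht F hF => hw.lintegral_move_le ((le_of_lt ht).trans hr') hF)
      (F := fun p => ENNReal.ofReal |g p|) hg.meas.abs.ennreal_ofReal
    refine le_trans (le_of_eq (lintegral_congr fun p => ?_)) (h.trans (le_of_eq ?_))
    · rw [win, ENNReal.ofReal_pow (integral_nonneg fun _ => abs_nonneg _),
        ofReal_integral_eq_lintegral_ofReal (hw.integrableOn_win hg r p)
          (Eventually.of_forall fun t => abs_nonneg _)]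
    · simp only [volume_win, ← ENNReal.ofReal_pow (abs_nonneg _), sq_abs]
      rw [← ofReal_integral_eq_lintegral_ofReal hg.sq_integrable (Eventually.of_forall fun p => sq_nonneg _),
        ← ENNReal.ofReal_pow (by linarith), show (4 : ℝ≥0∞) = ENNReal.ofReal 4 by norm_num,
        ← ENNReal.ofReal_mul (by norm_num), ← ENNReal.ofReal_mul (by positivity)]
      congr 1; ring
  have hint : Integrable fun p => win w g r p ^ 2 := by
    refine ⟨(hm.pow_const 2).aestronglyMeasurable, ?_⟩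
    rw [hasFiniteIntegral_iff_ofReal (Eventually.of_forall fun p => sq_nonneg _)]
    exact lt_of_le_of_lt hkey ENNReal.ofReal_lt_top
  refine ⟨hint, ?_⟩
  rw [← ofReal_integral_eq_lintegral_ofReal hint (Eventually.of_forall fun p => sq_nonneg _)] at hkey
  exact (ENNReal.ofReal_le_ofReal_iff (mul_nonneg (by positivity) (integral_nonneg fun p => sq_nonneg _))).mp hkey

/-- The slope of a field in the sector `1/2 ≤ w₁`. -/
def slopeOf (w : ℝ × ℝ → ℝ × ℝ) (p : ℝ × ℝ) : ℝ := (w p).2 / max (w p).1 (1 / 2)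

include hw in
lemma UnitField.slope : Slope (slopeOf w) 6 := by
  refine ⟨?_, by norm_num, fun c m m' => ?_⟩
  · have := hw.lipschitz.continuous.measurable
    unfold slopeOf; fun_prop
  have h1 : |(w (c, m)).1 - (w (c, m')).1| ≤ |m - m'| := by
    simpa [Real.sqrt_sq_eq_abs] using hw.lip₁ (c, m) (c, m')
  have h2 : |(w (c, m)).2 - (w (c, m')).2| ≤ |m - m'| := by
    simpa [Real.sqrt_sq_eq_abs] using hw.lip₂ (c, m) (c, m')
  have h3 : |(w (c, m')).2| ≤ 1 := (sq_le_one_iff_abs_le_one _).mp (by nlinarith [hw.unit (c, m')])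
  simp only [slopeOf]
  generalize (w (c, m)).1 = x1 at h1 ⊢
  generalize (w (c, m')).1 = y1 at h1 ⊢
  generalize (w (c, m)).2 = x2 at h2 ⊢
  generalize (w (c, m')).2 = y2 at h2 h3 ⊢
  set A := max x1 (1 / 2)
  set B := max y1 (1 / 2)
  have hA : 1 / 2 ≤ A := le_max_right _ _
  have hB : 1 / 2 ≤ B := le_max_right _ _
  have hAB : |B - A| ≤ |m - m'| :=
    (abs_max_sub_max_le_abs y1 x1 (1 / 2)).trans (by rw [abs_sub_comm]; exact h1)
  have e : x2 / A - y2 / B = (x2 - y2) / A + y2 * (B - A) / (A * B) := by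
    field_simp; ring
  rw [e]
  refine (abs_add_le _ _).trans ?_
  have t1 : |(x2 - y2) / A| ≤ 2 * |m - m'| := by
    rw [abs_div, abs_of_pos (by linarith : 0 < A), div_le_iff₀ (by linarith)]
    nlinarith [abs_nonneg (m - m')]
  have t2 : |y2 * (B - A) / (A * B)| ≤ 4 * |m - m'| := by
    rw [abs_div, abs_mul, abs_of_pos (by positivity : 0 < A * B), div_le_iff₀ (by positivity)]
    have : |y2| * |B - A| ≤ 1 * |m - m'| := mul_le_mul h3 hAB (abs_nonneg _) zero_le_one
    nlinarith [mul_le_mul hA hB (by norm_num) (by linarith), abs_nonneg (m - m')]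
  linarith

include hw in
lemma UnitField.trunc_sector (hg : Nice volume g) {ε a : ℝ} (hε : 0 < ε) (ha : ε < a)
    (ha' : a ≤ 1 / 16) {n : ℕ} (hn₁ : a ≤ ε * 2 ^ n) (hn₂ : ε * 2 ^ n ≤ 2 * a) {p : ℝ × ℝ}
    (hp : 1 / 2 ≤ (w p).1) :
    |trunc w ε a g p| ≤ |opT (slopeOf w) (cut ε (ε * 2 ^ n)) g p| +
      ε⁻¹ * win w g (2 * ε) p + a⁻¹ * win w g (4 * a) p := by
  obtain ⟨B, hB0, hB⟩ := hg.bdd
  set m := (w p).1
  have hm0 : 0 < m := by linarith
  have hm1 : m ≤ 1 := by nlinarith [hw.unit p, sq_nonneg (w p).2]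
  set L := ε * 2 ^ n with hL
  set G : ℝ → ℝ := fun t => g (move w t p) with hG
  have hGm : Measurable G := hg.meas.comp (hw.measurable_move.comp measurable_prodMk_right)
  have hmove : ∀ t, shift (slopeOf w) (-m * t) p = move w t p := fun t => by
    have : max m (1 / 2) = m := max_eq_left hp
    simp only [shift, move, slopeOf]
    rw [this]
    refine Prod.ext (by simp only [m]; ring) ?_
    field_simp
    ring
  have hT : opT (slopeOf w) (cut ε L) g p =
      -∫ t, (ann (ε / m) (L / m)).indicator (fun t => G t / t) t := by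
    have key : ∀ t, cut ε L (-m * t) * g (shift (slopeOf w) (-m * t) p) =
        -m⁻¹ * (ann (ε / m) (L / m)).indicator (fun t => G t / t) t := by
      intro t
      rw [hmove]
      have hiff : -m * t ∈ ann ε L ↔ t ∈ ann (ε / m) (L / m) := by
        simp only [ann, Set.mem_ofPred_eq, abs_mul, abs_neg, abs_of_pos hm0, div_le_iff₀ hm0, lt_div_iff₀ hm0]
        rw [mul_comm m |t|]
      by_cases ht : -m * t ∈ ann ε L
      · simp only [cut, Set.indicator_of_mem ht, Set.indicator_of_mem (hiff.mp ht), hG]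
        rcases eq_or_ne t 0 with h0 | h0
        · simp [h0]
        · field_simp
      · rw [cut, Set.indicator_of_notMem ht, Set.indicator_of_notMem (mt hiff.mpr ht)]; simp
    have h := Measure.integral_comp_mul_left (fun t => cut ε L t * g (shift (slopeOf w) t p)) (-m)
    simp only [key] at h
    rw [integral_const_mul, smul_eq_mul, inv_neg, abs_neg, abs_of_pos (inv_pos.mpr hm0)] at h
    have hmi : m⁻¹ ≠ 0 := (inv_pos.mpr hm0).ne'
    have : m⁻¹ * opT (slopeOf w) (cut ε L) g p =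
        m⁻¹ * -∫ t, (ann (ε / m) (L / m)).indicator (fun t => G t / t) t := by
      rw [opT, ← h]; ring
    exact mul_left_cancel₀ hmi this
  have hint : ∀ {b c : ℝ}, 0 < b → Integrable ((ann b c).indicator fun t => G t / t) := fun {b c} hb =>
    (integrable_indicator_iff (measurableSet_ann b c)).mpr (IntegrableOn.of_bound
      (volume_ann_lt_top b c) (hGm.div measurable_id).aestronglyMeasurable (B / b)
      ((ae_restrict_mem (measurableSet_ann b c)).mono fun t ht => by
        rw [Real.norm_eq_abs, abs_div]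
        exact div_le_div₀ hB0 (hB _) hb ht.1))
  have iw : ∀ r, Integrable ({t : ℝ | |t| < r}.indicator fun t => |G t|) := fun r =>
    (integrable_indicator_iff (measurableSet_win r)).mpr (hw.integrableOn_win hg r p)
  have hεm : ε ≤ ε / m ∧ ε / m ≤ 2 * ε := by
    rw [le_div_iff₀ hm0, div_le_iff₀ hm0]; constructor <;> nlinarith
  have hLm : a ≤ L / m ∧ L / m ≤ 4 * a := by
    rw [le_div_iff₀ hm0, div_le_iff₀ hm0]; constructor <;> nlinarith
  have hdiff : ∀ t, |(ann ε a).indicator (fun t => G t / t) t -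
      (ann (ε / m) (L / m)).indicator (fun t => G t / t) t| ≤
      ε⁻¹ * {t : ℝ | |t| < 2 * ε}.indicator (fun t => |G t|) t +
        a⁻¹ * {t : ℝ | |t| < 4 * a}.indicator (fun t => |G t|) t := by
    intro t
    have a0 : 0 < a := hε.trans ha
    have w1 : 0 ≤ ε⁻¹ * {t : ℝ | |t| < 2 * ε}.indicator (fun t => |G t|) t :=
      mul_nonneg (by positivity) (Set.indicator_nonneg (fun _ _ => abs_nonneg _) t)
    have w2 : 0 ≤ a⁻¹ * {t : ℝ | |t| < 4 * a}.indicator (fun t => |G t|) t :=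
      mul_nonneg (by positivity) (Set.indicator_nonneg (fun _ _ => abs_nonneg _) t)
    have near : ε ≤ |t| → |t| < 2 * ε → |G t / t| ≤ ε⁻¹ * {t : ℝ | |t| < 2 * ε}.indicator (fun t => |G t|) t := by
      intro h1 h2
      rw [Set.indicator_of_mem (show t ∈ {t : ℝ | |t| < 2 * ε} from h2), abs_div, div_eq_inv_mul]
      exact mul_le_mul_of_nonneg_right (inv_anti₀ hε h1) (abs_nonneg _)
    have far : a ≤ |t| → |t| < 4 * a → |G t / t| ≤ a⁻¹ * {t : ℝ | |t| < 4 * a}.indicator (fun t => |G t|) t := by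
      intro h1 h2
      rw [Set.indicator_of_mem (show t ∈ {t : ℝ | |t| < 4 * a} from h2), abs_div, div_eq_inv_mul]
      exact mul_le_mul_of_nonneg_right (inv_anti₀ a0 h1) (abs_nonneg _)
    by_cases h1 : t ∈ ann ε a <;> by_cases h2 : t ∈ ann (ε / m) (L / m)
    · simp only [Set.indicator_of_mem h1, Set.indicator_of_mem h2, sub_self, abs_zero]; linarith
    · rw [Set.indicator_of_mem h1, Set.indicator_of_notMem h2, sub_zero]
      rcases not_and_or.mp h2 with hn | hn
      · linarith [near h1.1 (lt_of_lt_of_le (not_le.mp hn) hεm.2)]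
      · exact absurd (h1.2.trans_le hLm.1) hn
    · rw [Set.indicator_of_notMem h1, Set.indicator_of_mem h2, zero_sub, abs_neg]
      rcases not_and_or.mp h1 with hn | hn
      · exact absurd (hεm.1.trans h2.1) hn
      · linarith [far (not_lt.mp hn) (lt_of_lt_of_le h2.2 hLm.2)]
    · simp only [Set.indicator_of_notMem h1, Set.indicator_of_notMem h2, sub_self, abs_zero]; linarith
  have hd : |trunc w ε a g p - ∫ t, (ann (ε / m) (L / m)).indicator (fun t => G t / t) t| ≤
      ε⁻¹ * win w g (2 * ε) p + a⁻¹ * win w g (4 * a) p := by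
    rw [trunc, ← integral_sub (hint hε) (hint (by positivity))]
    refine abs_integral_le_integral_abs.trans ((integral_mono ((hint hε).sub (hint (by positivity))).abs
      (((iw _).const_mul _).add ((iw _).const_mul _)) hdiff).trans (le_of_eq ?_))
    simp only [Pi.add_apply]
    rw [integral_add ((iw _).const_mul _) ((iw _).const_mul _), integral_const_mul, integral_const_mul,
      integral_indicator (measurableSet_win _), integral_indicator (measurableSet_win _)]
    rfl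
  rw [hT, abs_neg]
  have := abs_sub_abs_le_abs_sub (trunc w ε a g p)
    (∫ t, (ann (ε / m) (L / m)).indicator (fun t => G t / t) t)
  linarith

lemma trunc_neg (w : ℝ × ℝ → ℝ × ℝ) (ε a : ℝ) (g : ℝ × ℝ → ℝ) (p : ℝ × ℝ) :
    trunc (fun p => -w p) ε a g p = -trunc w ε a g p := by
  unfold trunc
  rw [← integral_neg_eq_self, ← integral_neg]
  congr 1; funext t
  have hmv : move (fun p => -w p) (-t) p = move w t p := by simp [move]
  by_cases h : t ∈ ann ε a
  · have h' : -t ∈ ann ε a := by simpa [ann] using h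
    simp [h, h', hmv, div_neg]
  · have h' : -t ∉ ann ε a := by simpa [ann] using h
    simp [h, h']

lemma trunc_swap (w : ℝ × ℝ → ℝ × ℝ) (ε a : ℝ) (g : ℝ × ℝ → ℝ) (p : ℝ × ℝ) :
    trunc (fun p => (w p.swap).swap) ε a (fun q => g q.swap) p.swap = trunc w ε a g p := by
  unfold trunc
  simp [move, Prod.swap]

include hw in
lemma UnitField.neg : UnitField fun p => -w p := by
  refine ⟨fun p => ?_, fun p q => ?_, fun p q => ?_⟩
  · simpa using hw.unit p
  · have := hw.lip₁ q p
    simp only [Prod.fst_neg, neg_sub_neg]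
    convert this using 2; ring
  · have := hw.lip₂ q p
    simp only [Prod.snd_neg, neg_sub_neg]
    convert this using 2; ring

include hw in
lemma UnitField.swap : UnitField fun p => (w p.swap).swap := by
  refine ⟨fun p => ?_, fun p q => ?_, fun p q => ?_⟩
  · have := hw.unit p.swap
    simp only [Prod.fst_swap, Prod.snd_swap]; linarith
  · simpa [add_comm] using hw.lip₂ p.swap q.swap
  · simpa [add_comm] using hw.lip₁ p.swap q.swap

lemma Nice.comp_swap (hg : Nice volume g) : Nice volume fun q : ℝ × ℝ => g q.swap := by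
  obtain ⟨B, hB0, hB⟩ := hg.bdd
  have hi : Integrable g (volume.prod volume) := hg.integrable
  exact ⟨hg.meas.comp measurable_swap, hi.swap, B, hB0, fun q => hB _⟩

lemma integral_swap_eq (F : ℝ × ℝ → ℝ) : ∫ p : ℝ × ℝ, F p.swap = ∫ p, F p :=
  integral_prod_swap F

lemma six_sq (a b c d e f : ℝ) :
    (a + b + c + d + e + f) ^ 2 ≤ 6 * (a ^ 2 + b ^ 2 + c ^ 2 + d ^ 2 + e ^ 2 + f ^ 2) := by
  have h : 0 ≤ (a - b) ^ 2 + (a - c) ^ 2 + (a - d) ^ 2 + (a - e) ^ 2 + (a - f) ^ 2 + (b - c) ^ 2 +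
      (b - d) ^ 2 + (b - e) ^ 2 + (b - f) ^ 2 + (c - d) ^ 2 + (c - e) ^ 2 + (c - f) ^ 2 +
      (d - e) ^ 2 + (d - f) ^ 2 + (e - f) ^ 2 := by positivity
  linarith

include hw in
/-- The square-root logarithmic bound for unit fields in coordinates. -/
theorem UnitField.trunc_sq (hg : Nice volume g) {ε a : ℝ} (hε : 0 < ε) (ha : ε < a)
    (ha' : a ≤ 1 / 16384) :
    ∫ p, trunc w ε a g p ^ 2 ≤ 16000000 * (1 + Real.log (a / ε)) * ∫ p, g p ^ 2 ∧
      Integrable (fun p => trunc w ε a g p ^ 2) := by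
  classical
  have ha0 : 0 < a := hε.trans ha
  have hex : ∃ n : ℕ, a ≤ ε * 2 ^ n := by
    obtain ⟨n, hn⟩ := pow_unbounded_of_one_lt (a / ε) one_lt_two
    exact ⟨n, by rw [div_lt_iff₀ hε] at hn; linarith⟩
  set n := Nat.find hex with hn
  have hn₁ : a ≤ ε * 2 ^ n := Nat.find_spec hex
  have hnpos : n ≠ 0 := fun h0 => by rw [h0] at hn₁; simp at hn₁; linarith
  obtain ⟨k, hk⟩ := Nat.exists_eq_succ_of_ne_zero hnpos
  have hkm : ε * 2 ^ k < a := not_le.mp (Nat.find_min hex (by omega : k < Nat.find hex))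
  have hn₂ : ε * 2 ^ n ≤ 2 * a := by rw [hk, pow_succ]; linarith
  have hnlog : (n : ℝ) + 1 ≤ 2 * (1 + Real.log (a / ε)) := by
    have : (k : ℝ) * Real.log 2 ≤ Real.log (a / ε) := by
      rw [← Real.log_pow]
      exact Real.log_le_log (by positivity) (by rw [le_div_iff₀ hε]; linarith)
    have h2 : (1 / 2 : ℝ) ≤ Real.log 2 := by linarith [Real.log_two_gt_d9]
    have : (k : ℝ) * (1 / 2) ≤ k * Real.log 2 := mul_le_mul_of_nonneg_left h2 (Nat.cast_nonneg k)
    rw [hk]; push_cast; linarith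
  set L := ε * 2 ^ n with hL
  have hLΛ : L * 6 ≤ 1 / 1024 := by linarith
  set w₃ : ℝ × ℝ → ℝ × ℝ := fun p => (w p.swap).swap
  set g₃ : ℝ × ℝ → ℝ := fun q => g q.swap
  have hg₃ : Nice volume g₃ := hg.comp_swap
  set A₁ := fun p => opT (slopeOf w) (cut ε L) g p
  set A₂ := fun p => opT (slopeOf fun q => -w q) (cut ε L) g p
  set A₃ := fun p : ℝ × ℝ => opT (slopeOf w₃) (cut ε L) g₃ p.swap
  set A₄ := fun p : ℝ × ℝ => opT (slopeOf fun q => -w₃ q) (cut ε L) g₃ p.swap
  set V₁ := fun p => ε⁻¹ * win w g (2 * ε) p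
  set V₂ := fun p => a⁻¹ * win w g (4 * a) p
  have hwin : ∀ (w' : ℝ × ℝ → ℝ × ℝ) (g' : ℝ × ℝ → ℝ) (r : ℝ) (p p' : ℝ × ℝ),
      (∀ t, |g' (move w' t p')| = |g (move w t p)|) → win w' g' r p' = win w g r p :=
    fun w' g' r p p' h => by simp only [win, h]
  have negwin : ∀ (w' : ℝ × ℝ → ℝ × ℝ) (g' : ℝ × ℝ → ℝ) (r : ℝ) (q : ℝ × ℝ),
      win (fun p => -w' p) g' r q = win w' g' r q := fun w' g' r q => by
    simp only [win, ← integral_indicator (measurableSet_win r)]
    rw [← integral_neg_eq_self]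
    congr 1; funext t
    have hmv : move (fun p => -w' p) (-t) q = move w' t q := by simp [move]
    by_cases h : |t| < r <;> simp [Set.indicator, h, hmv]
  have hpt : ∀ p, |trunc w ε a g p| ≤ |A₁ p| + |A₂ p| + |A₃ p| + |A₄ p| + V₁ p + V₂ p := by
    intro p
    have hV₁ : 0 ≤ V₁ p := mul_nonneg (by positivity) (integral_nonneg fun _ => abs_nonneg _)
    have hV₂ : 0 ≤ V₂ p := mul_nonneg (by positivity) (integral_nonneg fun _ => abs_nonneg _)
    have n1 := abs_nonneg (A₁ p); have n2 := abs_nonneg (A₂ p)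
    have n3 := abs_nonneg (A₃ p); have n4 := abs_nonneg (A₄ p)
    have hsw : ∀ r, win w₃ g₃ r p.swap = win w g r p := fun r => hwin _ _ r p _ fun t => by
      simp [w₃, g₃, move, Prod.swap]
    have hor : 1 / 2 ≤ (w p).1 ∨ 1 / 2 ≤ -(w p).1 ∨ 1 / 2 ≤ (w p).2 ∨ 1 / 2 ≤ -(w p).2 := by
      by_contra hcon
      simp only [not_or, not_le] at hcon
      nlinarith [hw.unit p]
    rcases hor with h | h | h | h
    · have := hw.trunc_sector hg hε ha (by linarith) hn₁ hn₂ (p := p) h
      simp only [A₁, V₁, V₂] at *; linarith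
    · have := hw.neg.trunc_sector hg hε ha (by linarith) hn₁ hn₂ (p := p) (by simpa using h)
      rw [trunc_neg, abs_neg, negwin, negwin] at this
      simp only [A₂, V₁, V₂] at *; linarith
    · have := hw.swap.trunc_sector hg₃ hε ha (by linarith) hn₁ hn₂ (p := p.swap) (by simpa using h)
      rw [trunc_swap, hsw, hsw] at this
      simp only [A₃, V₁, V₂] at *; linarith
    · have := hw.swap.neg.trunc_sector hg₃ hε ha (by linarith) hn₁ hn₂ (p := p.swap) (by simpa using h)
      rw [trunc_neg, abs_neg, trunc_swap, negwin, negwin, hsw, hsw] at this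
      simp only [A₄, V₁, V₂] at *; linarith
  set N := 300000 * ((n : ℝ) + 1)
  set X := ∫ p, g p ^ 2
  have hX : 0 ≤ X := integral_nonneg fun p => sq_nonneg _
  have hX₃ : ∫ p, g₃ p ^ 2 = X := integral_swap_eq fun p => g p ^ 2
  have hA : ∀ (w' : ℝ × ℝ → ℝ × ℝ) (g' : ℝ × ℝ → ℝ), UnitField w' → Nice volume g' →
      Integrable (fun p => opT (slopeOf w') (cut ε L) g' p ^ 2) ∧
        ∫ p, opT (slopeOf w') (cut ε L) g' p ^ 2 ≤ N * ∫ p, g' p ^ 2 := fun w' g' hw' hg' =>
    ⟨(hw'.slope.opT_spec hg' hε (b := L) (by linarith)).1.sq_integrable,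
      hw'.slope.opT_sq hg' hε n hLΛ⟩
  obtain ⟨i1, b1⟩ := hA w g hw hg
  obtain ⟨i2, b2⟩ := hA _ g hw.neg hg
  obtain ⟨j3, c3⟩ := hA w₃ g₃ hw.swap hg₃
  obtain ⟨j4, c4⟩ := hA _ g₃ hw.swap.neg hg₃
  rw [hX₃] at c3 c4
  have i3 : Integrable (fun p => A₃ p ^ 2) :=
    Integrable.swap (μ := volume) (ν := volume) j3
  have i4 : Integrable (fun p => A₄ p ^ 2) :=
    Integrable.swap (μ := volume) (ν := volume) j4
  have b3 : ∫ p, A₃ p ^ 2 ≤ N * X := (integral_swap_eq fun p => opT (slopeOf w₃) (cut ε L) g₃ p ^ 2).trans_le c3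
  have b4 : ∫ p, A₄ p ^ 2 ≤ N * X :=
    (integral_swap_eq fun p => opT (slopeOf fun q => -w₃ q) (cut ε L) g₃ p ^ 2).trans_le c4
  obtain ⟨u1, v1⟩ := hw.win_sq hg (r := 2 * ε) (by linarith) (by linarith)
  obtain ⟨u2, v2⟩ := hw.win_sq hg (r := 4 * a) (by linarith) (by linarith)
  have i5 : Integrable fun p => V₁ p ^ 2 := by simp only [V₁, mul_pow]; exact u1.const_mul _
  have i6 : Integrable fun p => V₂ p ^ 2 := by simp only [V₂, mul_pow]; exact u2.const_mul _
  have b5 : ∫ p, V₁ p ^ 2 ≤ 64 * X := by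
    simp only [V₁, mul_pow, integral_const_mul]
    calc _ ≤ (ε⁻¹) ^ 2 * (16 * (2 * ε) ^ 2 * X) := mul_le_mul_of_nonneg_left v1 (sq_nonneg _)
      _ = _ := by field_simp; ring
  have b6 : ∫ p, V₂ p ^ 2 ≤ 256 * X := by
    simp only [V₂, mul_pow, integral_const_mul]
    calc _ ≤ (a⁻¹) ^ 2 * (16 * (4 * a) ^ 2 * X) := mul_le_mul_of_nonneg_left v2 (sq_nonneg _)
      _ = _ := by field_simp; ring
  set S := fun p => 6 * (A₁ p ^ 2 + A₂ p ^ 2 + A₃ p ^ 2 + A₄ p ^ 2 + V₁ p ^ 2 + V₂ p ^ 2)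
  have h12 := i1.add i2
  have h123 := h12.add i3
  have h1234 := h123.add i4
  have h15 := h1234.add i5
  have hS : Integrable S := (h15.add i6).const_mul 6
  have hle : ∀ p, trunc w ε a g p ^ 2 ≤ S p := by
    intro p
    have := pow_le_pow_left₀ (abs_nonneg _) (hpt p) 2
    rw [sq_abs] at this
    refine this.trans ?_
    simp only [S]
    rw [← sq_abs (A₁ p), ← sq_abs (A₂ p), ← sq_abs (A₃ p), ← sq_abs (A₄ p)]
    exact six_sq _ _ _ _ _ _
  have htm : Measurable (trunc w ε a g) := by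
    have : Measurable fun z : (ℝ × ℝ) × ℝ =>
        (ann ε a).indicator (fun t => g (move w t z.1) / t) z.2 := by
      have e : (fun z : (ℝ × ℝ) × ℝ => (ann ε a).indicator (fun t => g (move w t z.1) / t) z.2) =
          ((Prod.snd : (ℝ × ℝ) × ℝ → ℝ) ⁻¹' ann ε a).indicator
            (fun z => g (move w z.2 z.1) / z.2) := by
        funext z; simp [Set.indicator]
      rw [e]
      exact ((hg.meas.comp (hw.measurable_move.comp measurable_swap)).div measurable_snd).indicator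
        (measurable_snd (measurableSet_ann ε a))
    exact this.stronglyMeasurable.integral_prod_right'.measurable
  have hint : Integrable fun p => trunc w ε a g p ^ 2 :=
    hS.mono' (htm.pow_const 2).aestronglyMeasurable (Eventually.of_forall fun p => by
      rw [Real.norm_eq_abs, abs_of_nonneg (sq_nonneg _)]; exact hle p)
  refine ⟨(integral_mono hint hS hle).trans ?_, hint⟩
  simp only [S]
  rw [integral_const_mul, integral_add (f := fun p => A₁ p ^ 2 + A₂ p ^ 2 + A₃ p ^ 2 + A₄ p ^ 2 + V₁ p ^ 2) h15 i6,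
    integral_add (f := fun p => A₁ p ^ 2 + A₂ p ^ 2 + A₃ p ^ 2 + A₄ p ^ 2) h1234 i5,
    integral_add (f := fun p => A₁ p ^ 2 + A₂ p ^ 2 + A₃ p ^ 2) h123 i4,
    integral_add (f := fun p => A₁ p ^ 2 + A₂ p ^ 2) h12 i3, integral_add i1 i2]
  have hl : 0 ≤ Real.log (a / ε) := Real.log_nonneg (by rw [le_div_iff₀ hε]; linarith)
  have hNX : N * X ≤ 600000 * (1 + Real.log (a / ε)) * X := by
    simp only [N]
    refine mul_le_mul_of_nonneg_right ?_ hX
    linarith
  simp only [A₁, A₂] at *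
  nlinarith [mul_nonneg hl hX]

end

end Vale.Agent.P112
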